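import Vale.Agent.P214.GEN.ExhG
import Vale.Agent.P214.COMP.Window
import Vale.Agent.P214.CAPF.Inst

/-!
# P214, block THIN (1): a drop of the energy puts the centre into a gap set

`Ax x r = max (a_x(r)) (g_x(r)/2)`.  If `Ax x t < e^{-C₂ B} Ax x s`, `s ≤ t`, then the total
negativity of `x` over the radii `[s, t]` exceeds `B/2`; hence `x` is in the gap set of the window
of levels covering `[s, t]`.
-/

open Set Filter Topology MeasureTheory Metric
open scoped RealInnerProductSpace ENNReal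

set_option linter.all false

namespace Vale.Agent.P214.THIN

open Vale.Agent.P214.Skel Vale.Agent.P214.EX Vale.Agent.P214.R2 Vale.Agent.P214.FV
  Vale.Agent.P214.ODE Vale.Agent.P214.GEN

/-- change of variables `r = s e^u` -/
lemma integral_exp {F : ℝ → ℝ} {s t : ℝ} (hs : 0 < s) (hst : s ≤ t)
    (hF : ContinuousOn F (Icc s t)) :
    ∫ u in (0:ℝ)..Real.log (t / s), F (s * Real.exp u) = ∫ r in s..t, F r / r := by
  have ht : 0 < t := hs.trans_le hst
  have hlog : 0 ≤ Real.log (t / s) := Real.log_nonneg (by rwa [one_le_div hs])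
  have himg : (fun u => s * Real.exp u) '' uIcc 0 (Real.log (t / s)) ⊆ Icc s t := by
    rintro _ ⟨u, hu, rfl⟩
    rw [uIcc_of_le hlog] at hu
    constructor
    · have := Real.one_le_exp hu.1
      nlinarith
    · have h1 : Real.exp u ≤ t / s := by
        calc Real.exp u ≤ Real.exp (Real.log (t / s)) := Real.exp_le_exp.2 hu.2
          _ = t / s := Real.exp_log (by positivity)
      calc s * Real.exp u ≤ s * (t / s) := by gcongr
        _ = t := by field_simp
  have key := intervalIntegral.integral_comp_mul_deriv' (a := (0:ℝ)) (b := Real.log (t / s))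
    (f := fun u => s * Real.exp u) (f' := fun u => s * Real.exp u) (g := fun r => F r / r)
    (fun u _ => (Real.hasDerivAt_exp u).const_mul s)
    (by fun_prop) (by
      refine ContinuousOn.mono (hF.div continuousOn_id fun r hr => ?_) himg
      exact (hs.trans_le hr.1).ne')
  have e0 : s * Real.exp 0 = s := by rw [Real.exp_zero, mul_one]
  have e1 : s * Real.exp (Real.log (t / s)) = t := by
    rw [Real.exp_log (by positivity)]; field_simp
  rw [e0, e1] at key
  rw [← key]
  refine intervalIntegral.integral_congr fun u _ => ?_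
  simp only [Function.comp]
  have : s * Real.exp u ≠ 0 := by positivity
  field_simp

variable {E : Type*} [NormedAddCommGroup E] [InnerProductSpace ℝ E] [FiniteDimensional ℝ E]
  [MeasurableSpace E] [BorelSpace E]
variable {m Q : ℕ} {T : Submodule ℝ E} {G : Set E} {h : ℝ} {ν : Measure E} {P : E → E →L[ℝ] E}
  {k k' K : ℝ → ℝ} {x z : E}

/-- `A_x(r) = max (a_x(r)) (g_x(r)/2)` -/
noncomputable def Ax (m Q : ℕ) (T : Submodule ℝ E) (K : ℝ → ℝ) (P : E → E →L[ℝ] E)
    (ν : Measure E) (x : E) (r : ℝ) : ℝ :=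
  max (aK m T x K ν (Q * cK m T K) r) (tiltK m T x K P ν r / 2)

lemma Ax_eq (s u : ℝ) : Ax m Q T K P ν x (s * Real.exp u) =
    NG.Am (CAPF.aU m T x K ν (Q * cK m T K) s) (CAPF.gU m T x K P ν s) u := rfl

lemma tiltK_le_Ax (r : ℝ) : tiltK m T x K P ν r ≤ 2 * Ax m Q T K P ν x r := by
  have := le_max_right (aK m T x K ν (Q * cK m T K) r) (tiltK m T x K P ν r / 2)
  unfold Ax; linarith

/-- the ratio of the path lemma is at most twice the negativity of the exhaustion -/
lemma Yr_le_Xf (hC : CylStat m T G h ν P) (hk : Kern k k' K) (h14 : 0 < K (1 / 4))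
    (hx : x ∈ T) {r : ℝ} (hr : 0 < r) (hxr : ‖x‖ + r ≤ 2) :
    NG.Yr (aK m T x K ν (Q * cK m T K) r) (tiltK m T x K P ν r) ≤ 2 * Xf m Q T ν P K x r := by
  rw [Xf_eq hC hk h14 hx hr hxr]
  unfold NG.Yr
  set a := aK m T x K ν (Q * cK m T K) r
  set g := tiltK m T x K P ν r
  have e1 : (g - a) / (2 * g) = (g - a) / g / 2 := by rw [div_div, mul_comm 2 g]
  rw [e1]
  set q := (g - a) / g
  rcases le_total 0 q with h0 | h0
  · rw [max_eq_right h0, max_eq_right (by linarith : 0 ≤ q / 2)]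
    rcases le_total 1 (q / 2) with h1 | h1
    · rw [min_eq_left h1]
      exact (min_le_left _ _).trans (by norm_num)
    · rw [min_eq_right h1]
      exact (min_le_right _ _).trans (by linarith)
  · rw [max_eq_left h0, max_eq_left (by linarith : q / 2 ≤ 0)]
    norm_num

lemma Xf_nonneg (r : ℝ) : 0 ≤ Xf m Q T ν P K x r := EX.Xneg_nonneg x r

/-- **A drop of `A_x` costs negativity.** -/
theorem int_Xf_of_drop (hC : CylStat m T G h ν P) (hk : Kern k k' K) (h14 : 0 < K (1 / 4))
    (hx : x ∈ T) {s t : ℝ} (hs : 0 < s) (hst : s ≤ t) (hxt : ‖x‖ + t ≤ 2)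
    (hG : BallIn T G x t) (hg : 0 < tiltK m T x K P ν s) {B : ℝ}
    (hdrop : Real.exp (NG.C2 m 0 * B) * Ax m Q T K P ν x t < Ax m Q T K P ν x s) :
    B < 2 * ∫ r in s..t, Xf m Q T ν P K x r / r := by
  haveI := hC.fin
  haveI := isFinite_nuB hC
  haveI := isFinite_lamB (Q := Q) hC
  haveI : IsFiniteMeasure (lamA T ν) := by unfold lamA; infer_instance
  obtain ⟨Kl, hη⟩ := isKernel_etaK (E := E) hk h14
  have ht : 0 < t := hs.trans_le hst
  set β := Real.log (t / s) with hβ
  have hβ0 : 0 ≤ β := Real.log_nonneg (by rwa [one_le_div hs])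
  have hsβ : s * Real.exp β = t := by
    rw [hβ, Real.exp_log (by positivity)]; field_simp
  have hp := CAPF.epath (α := 0) (β := β) (R := t) (M := m) hC hk (Q * cK m T K) hs hsβ.le hG
    (by rw [Real.exp_zero, mul_one]; exact hg) (by linarith)
  have h1 := hp.A_mono hβ0 (by positivity) le_rfl
  rw [← Ax_eq, ← Ax_eq, hsβ, Real.exp_zero, mul_one] at h1
  have hAt : 0 < Ax m Q T K P ν x t := by
    have := hp.Apos (u := β) ⟨hβ0, le_rfl⟩
    rwa [← Ax_eq, hsβ] at this
  have hC2 : 0 < NG.C2 m 0 := by unfold NG.C2; positivity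
  have h2 : NG.C2 m 0 * B + Real.log (Ax m Q T K P ν x t) < Real.log (Ax m Q T K P ν x s) := by
    have := Real.log_lt_log (by positivity) hdrop
    rwa [Real.log_mul (Real.exp_pos _).ne' hAt.ne', Real.log_exp] at this
  have h3 : B < ∫ v in (0:ℝ)..β, NG.Yp (CAPF.aU m T x K ν (Q * cK m T K) s)
      (CAPF.gU m T x K P ν s) v := by
    by_contra hcon
    push Not at hcon
    have := mul_le_mul_of_nonneg_left hcon hC2.le
    linarith
  refine h3.trans_le ?_
  -- change of variables
  have hcont : ContinuousOn (fun r => NG.Yr (aK m T x K ν (Q * cK m T K) r)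
      (tiltK m T x K P ν r)) (Icc s t) := by
    have ca : ContinuousOn (aK m T x K ν (Q * cK m T K)) (Icc s t) := fun r hr =>
      (CylStat.a_ode hC hk (hs.trans_le hr.1)
        (fun y hy hy2 => hG y hy (hy2.trans hr.2)) _).continuousAt.continuousWithinAt
    have cg : ContinuousOn (tiltK m T x K P ν) (Icc s t) := fun r hr =>
      (CAPF.hasDerivAt_tiltK hC hk (hs.trans_le hr.1)).continuousAt.continuousWithinAt
    unfold NG.Yr
    refine continuousOn_const.inf (continuousOn_const.sup ?_)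
    refine (cg.sub ca).div cg fun r hr => ?_
    exact (NGP.CylStat.tiltK_pos hC hk hs hr.1 hg).ne'
  have h4 : ∫ v in (0:ℝ)..β, NG.Yp (CAPF.aU m T x K ν (Q * cK m T K) s)
      (CAPF.gU m T x K P ν s) v
      = ∫ r in s..t, NG.Yr (aK m T x K ν (Q * cK m T K) r) (tiltK m T x K P ν r) / r :=
    integral_exp hs hst hcont
  rw [h4]
  have iX : IntervalIntegrable (fun r => Xf m Q T ν P K x r / r) volume s t :=
    intervalIntegrable_Xneg' hη x hs ht
  have iY : IntervalIntegrable (fun r => NG.Yr (aK m T x K ν (Q * cK m T K) r)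
      (tiltK m T x K P ν r) / r) volume s t := by
    refine ContinuousOn.intervalIntegrable ?_
    rw [uIcc_of_le hst]
    exact hcont.div continuousOn_id fun r hr => (hs.trans_le hr.1).ne'
  rw [← intervalIntegral.integral_const_mul]
  refine intervalIntegral.integral_mono_on hst iY (iX.const_mul 2) fun r hr => ?_
  have hr0 : 0 < r := hs.trans_le hr.1
  have h5 := Yr_le_Xf (Q := Q) hC hk h14 hx hr0 (by linarith [hr.2])
  calc NG.Yr (aK m T x K ν (Q * cK m T K) r) (tiltK m T x K P ν r) / r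
      ≤ (2 * Xf m Q T ν P K x r) / r := div_le_div_of_nonneg_right h5 hr0.le
    _ = _ := by ring

/-- the drop needed for a gap point -/
noncomputable def dropC (m : ℕ) (B : ℝ) : ℝ :=
  Real.exp (NG.C2 m 0 * (2 * (Real.log 2 * (16 * B + 2))))

lemma dropC_pos (m : ℕ) (B : ℝ) : 0 < dropC m B := Real.exp_pos _

/-- **A centre whose energy drops in a window belongs to the gap set of the window.** -/
theorem mem_gap_of_drop {Kl c₀ κ : ℝ} {M : ℕ} {adm : ℕ → Set E} {t₀ δ : ℝ} {φ : E → ℝ}
    {ρ N : ℕ → E → ℝ} (hC : CylStat m T G h ν P) (hk : Kern k k' K) (h14 : 0 < K (1 / 4))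
    (hη : IsKernel (E := E) (etaK K) Kl c₀)
    (hT : Total (etaK K) c₀ κ M (Dcen T) (closedBall (0 : E) (5 / 4)) adm t₀
      (psiStart φ δ) (lamA T ν) (lamB m Q T ν P) (nuB T ν P) ρ N)
    (ht₀ : 0 < t₀) (ht₀1 : t₀ ≤ 1 / 4) (hκ0 : 0 < κ) (hκ1 : κ ≤ 1) (hMκ : 8 * M * κ ≤ 1)
    (hx : x ∈ Dcen T) {i d : ℕ} (hadm : ∀ n < d, x ∈ adm (i + n)) {B : ℝ}
    (hB : 4 ≤ c₀ / 4 * κ * B) {s : ℝ} (hs : 2 * (t₀ / 2 ^ (i + d)) ≤ s)
    (hst : s ≤ 2 * (t₀ / 2 ^ i)) (hG : BallIn T G x (2 * (t₀ / 2 ^ i)))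
    (hg : 0 < tiltK m T x K P ν s)
    (hdrop : dropC m B * Ax m Q T K P ν x (2 * (t₀ / 2 ^ i)) < Ax m Q T K P ν x s) :
    0 < d ∧ x ∈ COMP.Gap ρ N i d (((d : ℝ)⁻¹) ^ 4 / 4) := by
  haveI := hC.fin
  haveI := isFinite_nuB hC
  haveI := isFinite_lamB (Q := Q) hC
  haveI : IsFiniteMeasure (lamA T ν) := by unfold lamA; infer_instance
  have hTi : ∀ j : ℕ, t₀ / 2 ^ j ≤ t₀ := fun j => div_le_self ht₀.le (one_le_pow₀ (by norm_num))
  have hs0 : 0 < s := lt_of_lt_of_le (by positivity) hs
  have hxn : ‖x‖ + 2 * (t₀ / 2 ^ i) ≤ 2 := by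
    have := hx.2
    have := hTi i
    linarith
  have hd : 0 < d := by
    rcases Nat.eq_zero_or_pos d with h0 | h0
    · exfalso
      rw [h0, add_zero] at hs
      have hs' : s = 2 * (t₀ / 2 ^ i) := le_antisymm hst hs
      rw [← hs'] at hdrop
      have h1 : 0 < Ax m Q T K P ν x s := lt_max_of_lt_right (half_pos hg)
      have hc0 := hη.pos
      have hc1 : c₀ ≤ 1 := (hη.lower 0 (by rw [norm_zero]; norm_num)).trans (hη.le_one 0)
      have hB0 : 0 ≤ B := by
        by_contra hcon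
        push Not at hcon
        have : c₀ / 4 * κ * B ≤ 0 := mul_nonpos_of_nonneg_of_nonpos (by positivity) hcon.le
        linarith
      have h2 : 1 ≤ dropC m B := by
        unfold dropC
        apply Real.one_le_exp
        have hl : 0 ≤ Real.log 2 := Real.log_nonneg (by norm_num)
        have : 0 ≤ NG.C2 m 0 := by unfold NG.C2; positivity
        positivity
      nlinarith
    · exact h0
  have h1 := int_Xf_of_drop (Q := Q) hC hk h14 hx.1 hs0 hst hxn hG hg hdrop
  refine ⟨hd, COMP.mem_gap_integral hT hη ht₀ hκ0 hκ1 hMκ hx hd hadm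
    (fun r => Xf m Q T ν P K x r) (fun r => EX.Xneg_le_one x r)
    (fun a ha => intervalIntegrable_Xneg' hη x ha (by positivity))
    (fun r _ _ hpos => Lam_le_of_Xneg_pos hη hpos) hB ?_⟩
  have hlo : 0 < 2 * (t₀ / 2 ^ (i + d)) := by positivity
  have i1 : IntervalIntegrable (fun r => Xf m Q T ν P K x r / r) volume
      (2 * (t₀ / 2 ^ (i + d))) s := intervalIntegrable_Xneg' hη x hlo hs0
  have i2 : IntervalIntegrable (fun r => Xf m Q T ν P K x r / r) volume s
      (2 * (t₀ / 2 ^ i)) := intervalIntegrable_Xneg' hη x hs0 (by positivity)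
  have hadd := intervalIntegral.integral_add_adjacent_intervals i1 i2
  have h0 : 0 ≤ ∫ r in (2 * (t₀ / 2 ^ (i + d)))..s, Xf m Q T ν P K x r / r :=
    intervalIntegral.integral_nonneg hs fun r hr =>
      div_nonneg (Xf_nonneg r) (hlo.le.trans hr.1)
  linarith

end Vale.Agent.P214.THIN
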