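import Vale.Agent.P214.THIN.Main

/-!
# P214, block THIN (5): energy of the gap region against the gap set of the exhaustion

`gap_energy`: energy form of `gap_ae`.  `ev`: the form for the classes: if the gap region of the
ball of radius `t ∈ [T_i, 2 T_i]` has energy `≥ θ A t^{m-2}`, `Ax z (12 T_i) ≤ J A`,
`R² ≥ C J L A`, and the mass outside the quarter windows over the ball of radius `3t/2` is small,
then `nuB (closedBall z (2 T_i) ∩ Gap) ≥ (θ/2) A T_i^{m-2}`.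
-/

open Set Filter Topology MeasureTheory Metric
open scoped RealInnerProductSpace ENNReal

set_option linter.all false

namespace Vale.Agent.P214.THIN

open Vale.Agent.P214.Skel Vale.Agent.P214.EX Vale.Agent.P214.R2 Vale.Agent.P214.FV
  Vale.Agent.P214.ODE Vale.Agent.P214.GEN

variable {E : Type*} [NormedAddCommGroup E] [InnerProductSpace ℝ E] [FiniteDimensional ℝ E]
  [MeasurableSpace E] [BorelSpace E]
variable {m Q : ℕ} {T : Submodule ℝ E} {G : Set E} {h : ℝ} {ν : Measure E} {P : E → E →L[ℝ] E}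
  {k k' K : ℝ → ℝ} {x z : E}

/-- the energy form -/
theorem gap_energy {ηf : E → ℝ} {c₀ κ : ℝ} {M : ℕ} {D Ω : Set E} {adm : ℕ → Set E} {t₀ : ℝ}
    {φ : E → ℝ} {l₁ l₂ : Measure E} {ρN N : ℕ → E → ℝ} (hC : CylStat m T G h ν P)
    (hT : Total ηf c₀ κ M D Ω adm t₀ φ l₁ l₂ (nuB T ν P) ρN N) (ht₀ : 0 < t₀)
    (hz : z ∈ T) {i d : ℕ} {w : ℝ} {S : Finset E} {R ρ : ℝ} (hρ0 : 0 ≤ ρ)
    (hzρ : ‖z‖ + ρ ≤ 2) (hρ : ρ ≤ 2 * (t₀ / 2 ^ i))
    (hae : ∀ᵐ y ∂ν, y ∈ CAPF.gapSet T z S R ρ → T.starProjection y ∈ COMP.Gap ρN N i d w) :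
    ENNReal.ofReal (∫ y in CAPF.gapSet T z S R ρ, ODE.tilt T P y ∂ν)
      ≤ nuB T ν P (closedBall z (2 * (t₀ / 2 ^ i)) ∩ COMP.Gap ρN N i d w) := by
  haveI := hC.fin
  have hE := COMP.ExOut.of_total hT ht₀
  have hms : MeasurableSet (closedBall z (2 * (t₀ / 2 ^ i)) ∩ COMP.Gap ρN N i d w) :=
    measurableSet_closedBall.inter (hE.isClosed_gap i d w).measurableSet
  rw [COMP.nuB_apply hms]
  have hint : Integrable (fun y => FV.tilt T (P y)) ν := integrable_tilt' hC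
  have e1 : ∫ y in CAPF.gapSet T z S R ρ, ODE.tilt T P y ∂ν
      = ∫ y in CAPF.gapSet T z S R ρ, FV.tilt T (P y) ∂ν := by
    refine integral_congr_ae (Eventually.of_forall fun y => ?_)
    simp only
    rw [TH.tilt_agree]
  rw [e1, ofReal_integral_eq_lintegral_ofReal hint.integrableOn
    (ae_restrict_of_ae (tilt_nonneg_ae hC))]
  refine lintegral_mono_set' ?_
  filter_upwards [hae] with y hy hmem
  have hbx : ‖bx T z y‖ < ρ := by
    have := hmem.1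
    unfold bsq at this
    exact lt_of_pow_lt_pow_left₀ 2 hρ0 this
  have hd : dist (T.starProjection y) z < ρ := by rwa [norm_bx_of_mem hz] at hbx
  refine ⟨?_, ?_, hy hmem⟩
  · rw [cylSet, mem_setOf_eq, mem_ball, dist_zero_right]
    have h1 := norm_sub_norm_le (T.starProjection y) z
    rw [← dist_eq_norm] at h1
    linarith
  · rw [mem_closedBall]
    linarith

lemma outSet_mono {S : Finset E} {R ρ ρ' : ℝ} (hρ : 0 ≤ ρ) (h : ρ ≤ ρ') :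
    CAPF.outSet T z S R ρ ⊆ CAPF.outSet T z S R ρ' := by
  rintro y ⟨h1, h2⟩
  exact ⟨h1.trans_le (by gcongr), h2⟩

/-- **Gap energy at the centre gives an event for the classes.** -/
theorem ev (E : Type*) [NormedAddCommGroup E] [InnerProductSpace ℝ E] [FiniteDimensional ℝ E]
    [MeasurableSpace E] [BorelSpace E] (m Q : ℕ) (hm : 1 ≤ m) {k k' K : ℝ → ℝ}
    (hk : Kern k k' K) (h14 : 0 < K (1 / 4)) {Kl c₀ κ : ℝ} {M : ℕ}
    (hη : IsKernel (E := E) (etaK K) Kl c₀) (hκ0 : 0 < κ) (hκ1 : κ ≤ 1) (hMκ : 8 * M * κ ≤ 1)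
    {τ₁ : ℝ} (hτ₁ : 0 < τ₁) :
    ∃ δ μ C : ℝ, 0 < δ ∧ 0 < μ ∧ 0 < C ∧
    ∀ (T : Submodule ℝ E) (h : ℝ) (ν : Measure E) (P : E → E →L[ℝ] E) (φ : E → ℝ)
      (δ₁ t₀ : ℝ) (adm : ℕ → Set E) (ρN N : ℕ → E → ℝ),
      IntCyl m Q T 0 2 h δ ν P → exc T ν P 0 2 ≤ δ * 2 ^ m → 0 < t₀ → t₀ ≤ 1 / 4 →
      Total (etaK K) c₀ κ M (Dcen T) (closedBall (0 : E) (5 / 4)) adm t₀
        (psiStart φ δ₁) (lamA T ν) (lamB m Q T ν P) (nuB T ν P) ρN N →
      ∀ z ∈ T, ∀ (i d : ℕ) (S : Finset E) (R t L A J θ : ℝ),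
        ‖z‖ + t ≤ 9 / 8 → t₀ / 2 ^ i ≤ t → t ≤ 2 * (t₀ / 2 ^ i) → t₀ / 2 ^ i ≤ 1 / 64 →
        (∀ x ∈ T, ‖x - z‖ ≤ t → ∀ j, i ≤ j → (∀ s, t₀ / 2 ^ j ≤ s → s ≤ t₀ / 2 ^ i →
          exc T ν P x s ≤ τ₁ * s ^ m) → x ∈ adm j) →
        (∀ s, 4 * (t₀ / 2 ^ i) ≤ s → s ≤ 1 / 4 → exc T ν P z s ≤ δ * s ^ m) →
        0 < R → R ≤ 2 * t → t₀ / 2 ^ (i + d) ≤ R / 4 →
        ν.real (CAPF.outSet T z S R (3 / 2 * t)) ≤ μ * t ^ m →
        1 ≤ L → Real.log (2 * t / R) ≤ L →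
        Ax m Q T K P ν z (12 * (t₀ / 2 ^ i)) ≤ J * A → C * (J * L * A) ≤ R ^ 2 →
        0 ≤ θ → 0 ≤ A →
        θ * A ≤ t ^ (2 - (m : ℤ)) * ∫ y in CAPF.gapSet T z S R t, ODE.tilt T P y ∂ν →
        ENNReal.ofReal (θ * A * (t₀ / 2 ^ i) ^ ((m : ℤ) - 2) / 2)
          ≤ nuB T ν P (closedBall z (2 * (t₀ / 2 ^ i)) ∩
            COMP.Gap ρN N i d (((d : ℝ)⁻¹) ^ 4 / 4)) := by
  obtain ⟨δ, μ, C, hδ, hμ, hC0, H⟩ := gap_ae E m Q hm hk h14 hη hκ0 hκ1 hMκ hτ₁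
  set c₁ : ℝ := 12 ^ ((m : ℤ) - 2) / K (1 / 4) * 2 with hc₁
  have hc₁0 : 0 < c₁ := by positivity
  refine ⟨δ, μ * (1 / 2) ^ m, C * c₁, hδ, by positivity, by positivity, ?_⟩
  intro T h ν P φ δ₁ t₀ adm ρN N hI hexc ht₀ ht₀1 hT z hz i d S R t L A J θ hzt hTt htT hTi1 hadm hsm
    hR hRt hdR hout hL1 hL hJ hCJ hθ hA hen
  have hC := hI.cyl
  set Ti := t₀ / 2 ^ i with hTi
  have hTi0 : 0 < Ti := by positivity
  have ht : 0 < t := hTi0.trans_le hTt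
  have hexc6 : exc T ν P z (6 * Ti) ≤ (c₁ * (J * A)) * Ti ^ ((m : ℤ) - 2) := by
    have h1 := exc_le_tiltK hC hk h14 hz (r := 6 * Ti) (by positivity)
    have e6 : 2 * (6 * Ti) = 12 * Ti := by ring
    rw [e6] at h1
    have h2 := tiltK_le_Ax (m := m) (Q := Q) (T := T) (K := K) (P := P) (ν := ν) (x := z)
      (12 * Ti)
    have hp : 0 < (12 * Ti) ^ ((m : ℤ) - 2) := by positivity
    calc exc T ν P z (6 * Ti)
        ≤ (12 * Ti) ^ ((m : ℤ) - 2) / K (1 / 4) * tiltK m T z K P ν (12 * Ti) := h1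
      _ ≤ (12 * Ti) ^ ((m : ℤ) - 2) / K (1 / 4) * (2 * (J * A)) := by
          refine mul_le_mul_of_nonneg_left ?_ (by positivity)
          linarith
      _ = _ := by rw [hc₁, mul_zpow]; ring
  have hae := H T h ν P φ δ₁ t₀ adm ρN N hI hexc ht₀ ht₀1 hT z hz i d S R t (t / 2) L
    (c₁ * (J * A)) hzt ht.le htT hTi1 hadm hsm hR (by linarith) (by linarith) hdR
    (by
      have e : t + t / 2 = 3 / 2 * t := by ring
      rw [e]
      refine hout.trans (le_of_eq ?_)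
      rw [div_eq_mul_one_div t 2, mul_pow]; ring)
    hL1 (by
      have e : 4 * (t / 2) / R = 2 * t / R := by ring
      rw [e]; exact hL) hexc6 (by
      refine le_trans (le_of_eq ?_) hCJ
      ring)
  refine le_trans (ENNReal.ofReal_le_ofReal ?_)
    (gap_energy hC hT ht₀ hz ht.le (by linarith) htT hae)
  -- the two powers
  have hp1 : 0 < t ^ (2 - (m : ℤ)) := by positivity
  have hp2 : 0 < t ^ ((m : ℤ) - 2) := by positivity
  have hpp : t ^ ((m : ℤ) - 2) * t ^ (2 - (m : ℤ)) = 1 := by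
    rw [← zpow_add₀ ht.ne']; simp
  have hcmp : Ti ^ ((m : ℤ) - 2) / 2 ≤ t ^ ((m : ℤ) - 2) := by
    rcases Nat.lt_or_ge m 2 with h1 | h1
    · have hm1 : m = 1 := by omega
      subst hm1
      have e : (((1:ℕ) : ℤ) - 2) = -1 := by norm_num
      rw [e, zpow_neg_one, zpow_neg_one, div_le_iff₀ (by norm_num), ← div_eq_inv_mul,
        inv_eq_one_div, div_le_div_iff₀ hTi0 ht]
      linarith
    · obtain ⟨n, rfl⟩ := Nat.exists_eq_add_of_le h1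
      have e : (((2 + n : ℕ) : ℤ) - 2) = (n : ℤ) := by push_cast; ring
      rw [e, zpow_natCast, zpow_natCast]
      have h3 : Ti ^ n ≤ t ^ n := by gcongr
      have h4 : 0 ≤ Ti ^ n := by positivity
      linarith
  have hθA : 0 ≤ θ * A := by positivity
  calc θ * A * Ti ^ ((m : ℤ) - 2) / 2 = θ * A * (Ti ^ ((m : ℤ) - 2) / 2) := by ring
    _ ≤ θ * A * t ^ ((m : ℤ) - 2) := by gcongr
    _ ≤ (t ^ (2 - (m : ℤ)) * ∫ y in CAPF.gapSet T z S R t, ODE.tilt T P y ∂ν)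
        * t ^ ((m : ℤ) - 2) := by gcongr
    _ = (t ^ ((m : ℤ) - 2) * t ^ (2 - (m : ℤ)))
        * ∫ y in CAPF.gapSet T z S R t, ODE.tilt T P y ∂ν := by ring
    _ = _ := by rw [hpp, one_mul]

end Vale.Agent.P214.THIN
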