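import Vale.Agent.P214.THIN.Numb
import Vale.Agent.P214.CAPF.Pos
import Vale.Agent.P214.PATHG.Props

/-!
# P214, block THIN (8): an event of the path lemma is an event of the classes

`PATHG.thin : PATHG.Thin E m Q`, with `Cd = 2`, `cT = 1`.
-/

open Set Filter Topology MeasureTheory Metric
open scoped RealInnerProductSpace ENNReal

set_option linter.all false

namespace Vale.Agent.P214.THIN

open Vale.Agent.P214.Skel Vale.Agent.P214.EX Vale.Agent.P214.R2 Vale.Agent.P214.FV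
  Vale.Agent.P214.ODE Vale.Agent.P214.GEN

variable {E : Type*} [NormedAddCommGroup E] [InnerProductSpace ℝ E] [FiniteDimensional ℝ E]
  [MeasurableSpace E] [BorelSpace E]
variable {m Q : ℕ} {T : Submodule ℝ E} {G : Set E} {h : ℝ} {ν : Measure E} {P : E → E →L[ℝ] E}
  {x z : E}

lemma log_two_bounds : (69 / 100 : ℝ) ≤ Real.log 2 ∧ Real.log 2 ≤ 7 / 10 :=
  ⟨by have := Real.log_two_gt_d9; linarith, by have := Real.log_two_lt_d9; linarith⟩

lemma log_32 : Real.log 32 = 5 * Real.log 2 := by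
  rw [show (32:ℝ) = 2 ^ 5 by norm_num, Real.log_pow]; norm_num

lemma exp_nat_log_two (n : ℕ) : Real.exp ((n : ℝ) * Real.log 2) = 2 ^ n := by
  rw [Real.exp_nat_mul, Real.exp_log (by norm_num)]

/-- scales between `t` and `32 t` in the path variable -/
lemma exists_path_var {s u r : ℝ} {i : ℕ} (hs : 0 < s)
    (hu2 : u ≤ ((i + 1 : ℕ) : ℝ) * Real.log 2) (hr1 : s * Real.exp u ≤ r)
    (hr2 : r ≤ 32 * (s * Real.exp u)) :
    ∃ v, r = s * Real.exp v ∧ u ≤ v ∧ v ≤ ((i + 6 : ℕ) : ℝ) * Real.log 2 := by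
  have hr0 : 0 < r := lt_of_lt_of_le (by positivity) hr1
  refine ⟨Real.log (r / s), ?_, ?_, ?_⟩
  · rw [Real.exp_log (by positivity)]; field_simp
  · rw [Real.le_log_iff_exp_le (by positivity), le_div_iff₀ hs]
    linarith
  · have h1 : Real.log (r / s) ≤ Real.log (32 * Real.exp u) := by
      apply Real.log_le_log (by positivity)
      rw [div_le_iff₀ hs]
      linarith
    rw [Real.log_mul (by norm_num) (Real.exp_pos _).ne', Real.log_exp, log_32] at h1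
    push_cast at hu2 ⊢
    linarith

/-- the scale `t` at an event -/
lemma t_le {s u : ℝ} {i I : ℕ} (hs : 0 < s) (hiI : i < I)
    (hu2 : u ≤ ((i + 1 : ℕ) : ℝ) * Real.log 2) :
    s * Real.exp u ≤ s * 2 ^ (I + 6) / 32 := by
  have hl := log_two_bounds
  have hiI' : ((i + 1 : ℕ) : ℝ) ≤ I := by exact_mod_cast hiI
  have h2 : Real.exp u ≤ 2 ^ I := by
    rw [← exp_nat_log_two]
    apply Real.exp_le_exp.2
    refine hu2.trans ?_
    exact mul_le_mul_of_nonneg_right hiI' (by linarith)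
  have h3 : (1:ℝ) ≤ 2 ^ I := one_le_pow₀ (by norm_num)
  rw [mul_div_assoc]
  refine mul_le_mul_of_nonneg_left ?_ hs.le
  rw [pow_add]
  norm_num
  linarith

lemma ballIn_eighth {x : E} (hx : x ∈ T) (hxn : ‖x‖ ≤ 1) : BallIn T (ball (0:E) 2) x (1 / 8) := by
  intro y hy hy2
  rw [mem_ball_zero_iff]
  rw [Submodule.starProjection_eq_self_iff.2 hx] at hy2
  have := norm_sub_norm_le y x
  linarith

section

variable {κ Mn C₁ ε B₀ C₈ κ₁ A₁ s R₁ δh u : ℝ} {S₀ S : Finset E} {H₀ H₀' : ℝ → ℝ}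
  {H₁ : Finset E → ℝ → ℝ} {e : ℕ → ℕ} {I i j : ℕ}

/-- **The mass outside the windows at an event.** -/
theorem mass_event (hm : 1 ≤ m) (hC : CylStat m T (ball 0 2) h ν P) (hx : x ∈ T) (hxn : ‖x‖ ≤ 1)
    (hs : 0 < s) (hsN : s * 2 ^ (I + 6) ≤ 1 / 16) (hR₁ : 0 < R₁) (hS₀T : ∀ c ∈ S₀, c ∈ Tᗮ)
    (hδh : 0 ≤ δh) (hε0 : 0 ≤ ε) (hε1 : ε ≤ 1) (hMn : 0 ≤ Mn) (hC₁ : 0 ≤ C₁) (hB₀ : 0 ≤ B₀)
    (hC₈ : 0 ≤ C₈) (hκ₁ : 0 ≤ κ₁) (hA₁ : 0 ≤ A₁) (hκ4 : 4 ≤ κ)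
    (hD : NG.NGData (I + 6) (Real.log 2) κ Mn C₁ ε B₀ C₈
      (CAPF.aU m T x TH.win ν (Q * cK m T TH.win) s) (CAPF.gU m T x TH.win P ν s)
      (CAPF.bU m T x NGP.kk P ν s) (CAPF.g₁U m T x NGP.kk TH.win P ν s) S₀ H₀ H₀'
      (fun S => CAPF.HU m T x NGP.kk (CAPF.capF T S (CAPF.wR S R₁)) P ν s δh) H₁
      (fun S => CAPF.gSU m T x TH.win (CAPF.capF T S (CAPF.wR S R₁)) P ν s))
    (hbot : ∫ y in QP.bset T x s, infDist (co T y) (S₀ : Set E) ^ 2 ∂ν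
      ≤ κ₁ * s ^ m * NG.Am (CAPF.aU m T x TH.win ν (Q * cK m T TH.win) s)
          (CAPF.gU m T x TH.win P ν s) 0)
    (hmass : ν.real (QP.bset T x s) ≤ A₁ * s ^ m) {e0 : ℕ}
    (hej : 1 ≤ e j) (hej1 : e j + 1 ≤ e (j + 1)) (hej0 : e j ≤ e0) (hS : S ⊆ S₀)
    (hSne : S.Nonempty)
    (hcov : NG.Cov S S₀ (NG.rad2 e κ (Real.log 2)
      (CAPF.aU m T x TH.win ν (Q * cK m T TH.win) s) (CAPF.gU m T x TH.win P ν s) j i))
    (hiI : i < I) (hu1 : (i * Real.log 2 : ℝ) ≤ u) (hu2 : u ≤ ((i + 1 : ℕ) : ℝ) * Real.log 2)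
    (hno : NG.Ag (CAPF.aU m T x TH.win ν (Q * cK m T TH.win) s) (CAPF.gU m T x TH.win P ν s)
        (Real.log 2) (i + 6)
      < 2 * NG.Ag (CAPF.aU m T x TH.win ν (Q * cK m T TH.win) s)
          (CAPF.gU m T x TH.win P ν s) (Real.log 2) i)
    (hR₁L : NG.Lam κ (Real.log 2) i ^ e (j + 1) *
      NG.Am (CAPF.aU m T x TH.win ν (Q * cK m T TH.win) s) (CAPF.gU m T x TH.win P ν s) u
      ≤ R₁ ^ 2)
    (hwmin : min (R₁ ^ 2) (NG.rad2 e κ (Real.log 2)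
      (CAPF.aU m T x TH.win ν (Q * cK m T TH.win) s) (CAPF.gU m T x TH.win P ν s) (j + 1) i / 9)
      ≤ CAPF.wR S R₁ ^ 2) {μ δ : ℝ} (hμ : 0 < μ)
    (hκμ : 2 * 4 ^ m * CAPF.Kout CAPF.kmin Mn C₁ B₀ C₈ κ₁ A₁ *
      (36 * 2 ^ e0 * qC Mn C₁ B₀ ^ 3) / μ ≤ κ) (hδμ : δ ≤ μ / (32 * 4 ^ m))
    (hexcs : ∀ r, s * Real.exp u ≤ r → r ≤ 1 / 8 → exc T ν P x r ≤ δ * r ^ m) :
    ν.real (CAPF.outSet T x S (CAPF.wR S R₁) (3 / 2 * (s * Real.exp u)))
      ≤ μ * (s * Real.exp u / 2) ^ m := by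
  have hl := log_two_bounds
  have hl0 : 0 ≤ Real.log 2 := by linarith
  have hκ1' : 1 ≤ κ := by linarith
  have hi0 : (0:ℝ) ≤ i * Real.log 2 := by positivity
  have hu0 : 0 ≤ u := hi0.trans hu1
  have hi6 : i + 6 ≤ I + 6 := by omega
  have hI6' : ((i + 6 : ℕ) : ℝ) * Real.log 2 ≤ ((I + 6 : ℕ) : ℝ) * Real.log 2 :=
    mul_le_mul_of_nonneg_right (by exact_mod_cast hi6) hl0
  have hw0 : 0 < CAPF.wR S R₁ := CAPF.wR_pos S hR₁
  have htle := t_le hs hiI hu2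
  have hlog53 : Real.log (5 / 3) ≤ 7 / 10 := by
    have := Real.log_le_sub_one_of_pos (show (0:ℝ) < 5 / 3 by norm_num)
    linarith
  have hlog530 : 0 ≤ Real.log (5 / 3) := Real.log_nonneg (by norm_num)
  have hexpu' : s * Real.exp (u + Real.log (5 / 3)) = 5 / 3 * (s * Real.exp u) := by
    rw [Real.exp_add, Real.exp_log (by norm_num)]; ring
  have hu'6 : u + Real.log (5 / 3) ≤ ((i + 6 : ℕ) : ℝ) * Real.log 2 := by
    push_cast at hu2 ⊢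
    linarith
  have hratio := ratio_le (e0 := e0) hD hl0 hMn hC₁ hB₀ hκ1' hi6 hno hu1
    (show u ≤ u + Real.log (5 / 3) by linarith) hu'6 (by
      unfold NG.Lam
      push_cast at hu2
      linarith) hej1 hej0 hw0 hR₁L hwmin
  have hout0 := CAPF.mass_out_event (e := e) hC NGP.kernW CAPF.kmin_pos
    (fun s hs => CAPF.kmin_le hs) hm hs hl0
    (R' := 1 / 8) (by rw [exp_nat_log_two]; linarith) (ballIn_eighth hx hxn) hR₁ hS₀T hδh hMn
    hC₁ hε0 hε1 hB₀ hC₈ hκ1' hκ₁ hA₁ hD hbot hmass hej hS hSne hcov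
    (u := u + Real.log (5 / 3)) ⟨by linarith, hu'6.trans hI6'⟩
  set t : ℝ := s * Real.exp u with ht
  have ht0 : 0 < t := by positivity
  have e1 : 9 / 10 * (s * Real.exp (u + Real.log (5 / 3))) = 3 / 2 * t := by rw [hexpu']; ring
  rw [e1, hexpu', Dex_eq_exc hx (by positivity)] at hout0
  set KO := CAPF.Kout CAPF.kmin Mn C₁ B₀ C₈ κ₁ A₁ with hKO
  have hKO0 : 0 ≤ KO := by
    have h1 := CAPF.kmin_pos
    have h2 : 0 ≤ CAPF.K9 Mn C₁ B₀ C₈ := by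
      unfold CAPF.K9 NG.K2
      positivity
    rw [hKO]
    unfold CAPF.Kout
    positivity
  have hexc53 := hexcs (5 / 3 * t) (by linarith) (by linarith)
  have hpow : (5 / 3 * t) ^ m ≤ 4 ^ m * (t / 2) ^ m := by
    rw [← mul_pow]
    exact pow_le_pow_left₀ (by positivity) (by linarith) m
  have hκ0 : 0 < κ := by linarith
  have hμκ : KO * (36 * 2 ^ e0 * qC Mn C₁ B₀ ^ 3 / κ) * 4 ^ m ≤ μ / 2 := by
    rw [div_le_iff₀ hμ] at hκμ
    have : KO * (36 * 2 ^ e0 * qC Mn C₁ B₀ ^ 3 / κ) * 4 ^ m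
        = (2 * 4 ^ m * KO * (36 * 2 ^ e0 * qC Mn C₁ B₀ ^ 3)) / (2 * κ) := by
      field_simp
    rw [this, div_le_div_iff₀ (by positivity) (by norm_num)]
    linarith
  have hδ' : 16 * δ * 4 ^ m ≤ μ / 2 := by
    rw [le_div_iff₀ (by positivity)] at hδμ
    linarith
  have hpm : 0 < (t / 2) ^ m := by positivity
  have hδ0 : 0 ≤ δ ∨ δ < 0 := le_or_gt 0 δ
  calc ν.real (CAPF.outSet T x S (CAPF.wR S R₁) (3 / 2 * t))
      ≤ _ := hout0
    _ ≤ KO * (36 * 2 ^ e0 * qC Mn C₁ B₀ ^ 3 / κ) * (4 ^ m * (t / 2) ^ m)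
        + 16 * (max δ 0 * (4 ^ m * (t / 2) ^ m)) := by
        have h1 : δ * (5 / 3 * t) ^ m ≤ max δ 0 * (4 ^ m * (t / 2) ^ m) := by
          calc δ * (5 / 3 * t) ^ m ≤ max δ 0 * (5 / 3 * t) ^ m := by
                gcongr
                exact le_max_left _ _
            _ ≤ _ := mul_le_mul_of_nonneg_left hpow (le_max_right _ _)
        have h2 : exc T ν P x (5 / 3 * t) ≤ max δ 0 * (4 ^ m * (t / 2) ^ m) :=
          hexc53.trans h1
        have hq1 : 0 ≤ 36 * 2 ^ e0 * qC Mn C₁ B₀ ^ 3 / κ := by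
          have := one_le_qC hMn hC₁ hB₀
          positivity
        gcongr
    _ = (KO * (36 * 2 ^ e0 * qC Mn C₁ B₀ ^ 3 / κ) * 4 ^ m) * (t / 2) ^ m
        + (16 * max δ 0 * 4 ^ m) * (t / 2) ^ m := by ring
    _ ≤ (μ / 2) * (t / 2) ^ m + (μ / 2) * (t / 2) ^ m := by
        have h3 : 16 * max δ 0 * 4 ^ m ≤ μ / 2 := by
          rcases hδ0 with h4 | h4
          · rw [max_eq_left h4]; exact hδ'
          · rw [max_eq_right h4.le]; simp; positivity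
        gcongr
    _ = _ := by ring

end

end Vale.Agent.P214.THIN
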