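import Vale.Agent.P214.THIN.Drop
import Vale.Agent.P214.CAPF.Mout
import Vale.Agent.P214.CAPF.Event
import Vale.Agent.P214.TH.Main

/-!
# P214, block THIN (2): a point in a gap forces energy at some intermediate scale

`y₀` over `ball z ρ` at distance `> R/2` from all heights of `S`; the mass outside the quarter
windows over `ball z (ρ+τ)` is small; lower density at `y₀`.  Then
`g_{p y₀}(r) > c R²/L` for some `r ∈ [R/2, 2τ]`, `L ≥ max 1 (log (4τ/R))`.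
-/

open Set Filter Topology MeasureTheory Metric
open scoped RealInnerProductSpace ENNReal

set_option linter.all false

namespace Vale.Agent.P214.THIN

open Vale.Agent.P214.FV Vale.Agent.P214.ODE

variable {E : Type*} [NormedAddCommGroup E] [InnerProductSpace ℝ E] [FiniteDimensional ℝ E]
  [MeasurableSpace E] [BorelSpace E]
variable {m Q : ℕ} {T : Submodule ℝ E} {G : Set E} {h : ℝ} {ν : Measure E} {P : E → E →L[ℝ] E}
  {k k' K : ℝ → ℝ} {x z : E}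

lemma bx_proj (z y : E) : bx T (T.starProjection z) y = bx T z y := by
  unfold bx
  rw [map_sub, map_sub, Submodule.starProjection_eq_self_iff.2 (T.starProjection_apply_mem z)]

lemma tiltK_proj (z : E) (r : ℝ) :
    tiltK m T (T.starProjection z) K P ν r = tiltK m T z K P ν r := by
  unfold tiltK bsq
  simp only [bx_proj]

/-- the window about a gap point lies outside the quarter windows -/
lemma winSet_subset {S : Finset E} {R ρ τ : ℝ} {y₀ : E} (hρ : 0 ≤ ρ) (hτ : 0 ≤ τ)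
    (hy : y₀ ∈ CAPF.gapSet T z S R ρ) :
    TH.winSet T y₀ (co T y₀) (R / 4) τ ⊆ CAPF.outSet T z S R (ρ + τ) := by
  rintro y ⟨h1, h2⟩
  refine ⟨?_, fun c hc => ?_⟩
  · have e1 : ‖bx T z y₀‖ < ρ := by
      have := hy.1
      unfold bsq at this
      exact lt_of_pow_lt_pow_left₀ 2 hρ this
    have e2 : ‖bx T y₀ y‖ < τ := by
      unfold bsq at h1
      exact lt_of_pow_lt_pow_left₀ 2 hτ h1
    have e3 : bx T z y = bx T y₀ y + bx T z y₀ := by
      unfold bx; rw [← map_add]; congr 1; abel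
    have e4 : ‖bx T z y‖ < ρ + τ := by
      rw [e3]
      linarith [norm_add_le (bx T y₀ y) (bx T z y₀)]
    unfold bsq
    gcongr
  · have h3 := hy.2 c hc
    have e1 : hgt T c y₀ = hgt T c y - hgt T (co T y₀) y := by
      unfold hgt; abel
    rw [e1] at h3
    have h4 := norm_sub_le (hgt T c y) (hgt T (co T y₀) y)
    have h5 : ‖hgt T (co T y₀) y‖ < R / 4 := h2
    linarith

/-- the constant -/
noncomputable def pC (m : ℕ) (κ κ₁ B a : ℝ) : ℝ :=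
  κ₁ * (2 : ℝ) ^ (2 - (m : ℤ)) * TH.gapC m κ B a / 32

lemma pC_pos {κ κ₁ B a : ℝ} (hκ : 0 < κ) (hκ₁ : 0 < κ₁) (hB : 0 ≤ B) (ha : 0 < a) :
    0 < pC m κ κ₁ B a := by
  have := TH.gapC_pos (m := m) hκ hB ha
  unfold pC
  positivity

/-- **Energy at a gap point.** -/
theorem point (hC : CylStat m T G h ν P) (hk : Kern k k' K) {B κ κ₁ : ℝ} (hB0 : 0 ≤ B)
    (hB : ∀ s, 0 ≤ s → |k s| ≤ B ∧ |k' s| ≤ B ∧ |K s| ≤ B)
    {kw kw' Kw : ℝ → ℝ} (hkw : Kern kw kw' Kw) 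
    (hBw : ∀ s, 0 ≤ s → |kw s| ≤ B ∧ |kw' s| ≤ B ∧ |Kw s| ≤ B)
    (hκ0 : 0 < κ) (hκ : ∀ s, 0 ≤ s → s ≤ 1 / 4 → κ ≤ kw s)
    (hκ₁0 : 0 < κ₁) (hκ₁ : ∀ s, 0 ≤ s → s ≤ 1 / 4 → κ₁ ≤ K s)
    {S : Finset E} {R ρ τ L μ a R' : ℝ} {y₀ : E} (ha : 0 < a) (hR : 0 < R) (hρ : 0 ≤ ρ)
    (hy : y₀ ∈ CAPF.gapSet T z S R ρ) (hτ : R / 4 ≤ τ) (htR : τ < R') (hG : BallIn T G y₀ R')
    (hout : ν.real (CAPF.outSet T z S R (ρ + τ)) ≤ μ * τ ^ m)
    (hμ : B * μ ≤ κ * a * (1 / 2) ^ m / 2)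
    (hdens : a * (R / 8) ^ m ≤ ν.real (ball y₀ (R / 8)))
    (hL1 : 1 ≤ L) (hL : Real.log (4 * τ / R) ≤ L) :
    ∃ r ∈ Icc (R / 2) (2 * τ), pC m κ κ₁ B a * R ^ 2 / L
      < tiltK m T (T.starProjection y₀) K P ν r := by
  haveI := hC.fin
  have hτ0 : 0 < τ := by linarith
  have hfrac : hgtK m T y₀ kw (TH.winF T (co T y₀) (R / 4)) ν τ ≤ κ * a * (1 / 2) ^ m / 2 := by
    refine (TH.hgtK_win_le_mass hC hkw hB0 (fun s hs => (hBw s hs).1) (by positivity)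
      hτ0).trans ?_
    rw [div_le_iff₀ (by positivity)]
    calc B * ν.real (TH.winSet T y₀ (co T y₀) (R / 4) τ)
        ≤ B * (μ * τ ^ m) := by
          gcongr
          exact (measureReal_mono (winSet_subset hρ hτ0.le hy)).trans hout
      _ = (B * μ) * τ ^ m := by ring
      _ ≤ _ := by gcongr
  obtain ⟨t', ht', h1⟩ := TH.thin_gap_win hC hkw hB0 hBw hκ0 hκ (y₀ := y₀) (a := a)
    (w := R / 4) (t := τ) (R := R') (L := L) ha (by positivity) hτ htR hG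
    (by have e : R / 4 / 2 = R / 8 := by ring
        rw [e]; exact hdens) hfrac hL1
    (by have e : τ / (R / 4) = 4 * τ / R := by field_simp
        rw [e]; exact hL)
  have ht0 : 0 < t' := lt_of_lt_of_le (by positivity) ht'.1
  refine ⟨2 * t', ⟨by linarith [ht'.1], by linarith [ht'.2]⟩, ?_⟩
  rw [tiltK_proj]
  have h2 := TH.winE_le_tiltK (z := y₀) (c := co T y₀) (ρ := R / 4) (R := R') hC hk hκ₁0 hκ₁ ht0
  have h3 := h1.trans_le h2
  have e2 : (2 : ℝ) ^ (2 - (m : ℤ)) * (2 : ℝ) ^ ((m : ℤ) - 2) = 1 := by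
    rw [← zpow_add₀ (by norm_num)]; simp
  have hpos : 0 < κ₁ * (2 : ℝ) ^ (2 - (m : ℤ)) := by positivity
  calc pC m κ κ₁ B a * R ^ 2 / L
      = κ₁ * (2 : ℝ) ^ (2 - (m : ℤ)) * (TH.gapC m κ B a * (R / 4) ^ 2 / (2 * L)) := by
        unfold pC; ring
    _ < κ₁ * (2 : ℝ) ^ (2 - (m : ℤ))
          * ((2 : ℝ) ^ ((m : ℤ) - 2) / κ₁ * tiltK m T y₀ K P ν (2 * t')) := by gcongr
    _ = ((2 : ℝ) ^ (2 - (m : ℤ)) * (2 : ℝ) ^ ((m : ℤ) - 2)) * tiltK m T y₀ K P ν (2 * t') := by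
        field_simp
    _ = _ := by rw [e2, one_mul]

end Vale.Agent.P214.THIN
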