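import Vale.Agent.P214.THIN.Top
import Vale.Agent.P214.THIN.Point
import Vale.Agent.P214.B4.DichInt
import Vale.Agent.P214.COMP.Cyl

/-!
# P214, block THIN (4): the points of a gap region project into the gap set of the exhaustion

`gap_ae`: configuration `IntCyl m Q T 0 2`; centre `z`, level `T_i = t₀/2^i`, window size `R`,
`R² ≥ C L A` where `exc z (6 T_i) ≤ A T_i^{m-2}`: a.e. point of `gapSet T z S R ρ`, `ρ ≤ 2 T_i`,
projects into `COMP.Gap ρN N i d (d⁻⁴/4)` (window of levels down to the scale `R/4`).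
`gap_energy`: hence the tilt energy of the gap region is at most
`nuB (closedBall z (2 T_i) ∩ Gap)`.
-/

open Set Filter Topology MeasureTheory Metric
open scoped RealInnerProductSpace ENNReal

set_option linter.all false

namespace Vale.Agent.P214.THIN

open Vale.Agent.P214.Skel Vale.Agent.P214.EX Vale.Agent.P214.R2 Vale.Agent.P214.FV
  Vale.Agent.P214.ODE Vale.Agent.P214.GEN

/-- the first level at which a drop occurs -/
lemma first_drop {A : ℝ → ℝ} {t₀ : ℝ} (ht₀ : 0 < t₀) {i d : ℕ} {D s : ℝ}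
    (hs : 2 * (t₀ / 2 ^ (i + d)) ≤ s) (hst : s ≤ 2 * (t₀ / 2 ^ i))
    (hdrop : D * A (2 * (t₀ / 2 ^ i)) < A s) :
    ∃ d' ≤ d, (∃ s', s ≤ s' ∧ 2 * (t₀ / 2 ^ (i + d')) ≤ s' ∧ s' ≤ 2 * (t₀ / 2 ^ i) ∧
        D * A (2 * (t₀ / 2 ^ i)) < A s') ∧
      ∀ n < d', s < 2 * (t₀ / 2 ^ (i + n)) ∧ ∀ r, 2 * (t₀ / 2 ^ (i + n)) ≤ r →
        r ≤ 2 * (t₀ / 2 ^ i) → A r ≤ D * A (2 * (t₀ / 2 ^ i)) := by
  classical
  have hex : ∃ n : ℕ, ∃ s', s ≤ s' ∧ 2 * (t₀ / 2 ^ (i + n)) ≤ s' ∧ s' ≤ 2 * (t₀ / 2 ^ i) ∧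
      D * A (2 * (t₀ / 2 ^ i)) < A s' := ⟨d, s, le_rfl, hs, hst, hdrop⟩
  refine ⟨Nat.find hex, Nat.find_min' hex ⟨s, le_rfl, hs, hst, hdrop⟩, Nat.find_spec hex, ?_⟩
  intro n hn
  have hn' := Nat.find_min hex hn
  push Not at hn'
  have h1 : s < 2 * (t₀ / 2 ^ (i + n)) := by
    by_contra hcon
    push Not at hcon
    have := hn' s le_rfl hcon hst
    linarith
  exact ⟨h1, fun r hr hr2 => hn' r (by linarith) hr hr2⟩

variable {E : Type*} [NormedAddCommGroup E] [InnerProductSpace ℝ E] [FiniteDimensional ℝ E]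
  [MeasurableSpace E] [BorelSpace E]
variable {m Q : ℕ} {T : Submodule ℝ E} {G : Set E} {h : ℝ} {ν : Measure E} {P : E → E →L[ℝ] E}
  {k k' K : ℝ → ℝ} {x z : E}

lemma gap_mono {η c₀ κ : ℝ} {ηf : E → ℝ} {M : ℕ} {D Ω : Set E} {adm : ℕ → Set E} {t₀ : ℝ}
    {φ : E → ℝ} {l₁ l₂ ν : Measure E} {ρ N : ℕ → E → ℝ}
    (hT : Total ηf c₀ κ M D Ω adm t₀ φ l₁ l₂ ν ρ N) {i d d' : ℕ} (hd : 0 < d') (hdd : d' ≤ d)
    (hx : x ∈ COMP.Gap ρ N i d' (((d' : ℝ)⁻¹) ^ 4 / 4)) :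
    x ∈ COMP.Gap ρ N i d (((d : ℝ)⁻¹) ^ 4 / 4) := by
  have h1 : ((d' : ℝ)⁻¹) ^ 4 / 4 * ρ i x ≤ ∑ j ∈ Finset.Ico i (i + d'), N j x := hx
  show ((d : ℝ)⁻¹) ^ 4 / 4 * ρ i x ≤ ∑ j ∈ Finset.Ico i (i + d), N j x
  have hd0 : (0:ℝ) < d' := by exact_mod_cast hd
  have hdd' : (d' : ℝ) ≤ d := by exact_mod_cast hdd
  have h2 : ((d : ℝ)⁻¹) ^ 4 / 4 ≤ ((d' : ℝ)⁻¹) ^ 4 / 4 := by gcongr
  have h3 : 0 ≤ ρ i x := (hT.good i).nonneg x
  have h4 : ∑ j ∈ Finset.Ico i (i + d'), N j x ≤ ∑ j ∈ Finset.Ico i (i + d), N j x :=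
    Finset.sum_le_sum_of_subset_of_nonneg (Finset.Ico_subset_Ico_right (by omega))
      fun j _ _ => (hT.step j).nonneg x
  calc _ ≤ ((d' : ℝ)⁻¹) ^ 4 / 4 * ρ i x := by gcongr
    _ ≤ _ := h1.trans h4

/-- **A centre whose energy drops in a window belongs to the gap set**, the admissibility is
needed only as long as the excess is small. -/
theorem mem_gap_adm {Kl c₀ κ : ℝ} {M : ℕ} {adm : ℕ → Set E} {t₀ δ : ℝ} {φ : E → ℝ}
    {ρ N : ℕ → E → ℝ} (hC : CylStat m T G h ν P) (hk : Kern k k' K) (h14 : 0 < K (1 / 4))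
    (hη : IsKernel (E := E) (etaK K) Kl c₀)
    (hT : Total (etaK K) c₀ κ M (Dcen T) (closedBall (0 : E) (5 / 4)) adm t₀
      (psiStart φ δ) (lamA T ν) (lamB m Q T ν P) (nuB T ν P) ρ N)
    (ht₀ : 0 < t₀) (ht₀1 : t₀ ≤ 1 / 4) (hκ0 : 0 < κ) (hκ1 : κ ≤ 1) (hMκ : 8 * M * κ ≤ 1)
    (hx : x ∈ Dcen T) {i d : ℕ} {τ : ℝ} (hτ : 0 ≤ τ)
    (hadm : ∀ j, i ≤ j → (∀ s, t₀ / 2 ^ j ≤ s → s ≤ t₀ / 2 ^ i → exc T ν P x s ≤ τ * s ^ m) →
      x ∈ adm j) {B : ℝ}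
    (hB : 4 ≤ c₀ / 4 * κ * B) {s : ℝ} (hs : 2 * (t₀ / 2 ^ (i + d)) ≤ s)
    (hst : s ≤ 2 * (t₀ / 2 ^ i)) (hG : BallIn T G x (2 * (t₀ / 2 ^ i)))
    (hg : 0 < tiltK m T x K P ν s)
    (hdrop : dropC m B * Ax m Q T K P ν x (2 * (t₀ / 2 ^ i)) < Ax m Q T K P ν x s)
    (hsmall : 2 ^ (m + 1) * dropC m B / K (1 / 4) * Ax m Q T K P ν x (2 * (t₀ / 2 ^ i))
      ≤ τ * s ^ 2) :
    x ∈ COMP.Gap ρ N i d (((d : ℝ)⁻¹) ^ 4 / 4) := by
  obtain ⟨d', hd', ⟨s', hss', hs'1, hs'2, hdrop'⟩, hall⟩ := first_drop ht₀ hs hst hdrop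
  have hs0 : 0 < s := lt_of_lt_of_le (by positivity) hs
  have hg' : 0 < tiltK m T x K P ν s' := NGP.CylStat.tiltK_pos hC hk hs0 hss' hg
  have hadm' : ∀ n < d', x ∈ adm (i + n) := by
    intro n hn
    obtain ⟨h1, h2⟩ := hall n hn
    refine hadm (i + n) (by omega) fun r hr1 hr2 => ?_
    have hr0 : 0 < r := lt_of_lt_of_le (by positivity) hr1
    have h3 := h2 (2 * r) (by linarith) (by linarith)
    have h4 := exc_le_tiltK hC hk h14 hx.1 hr0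
    have h5 := tiltK_le_Ax (m := m) (Q := Q) (T := T) (K := K) (P := P) (ν := ν) (x := x) (2 * r)
    have h6 : tiltK m T x K P ν (2 * r)
        ≤ 2 * (dropC m B * Ax m Q T K P ν x (2 * (t₀ / 2 ^ i))) := by linarith
    have h7 : s ≤ 2 * r := by linarith
    have hz : (2 * r) ^ ((m : ℤ) - 2) * (2 * r) ^ 2 = (2 * r) ^ m := by
      rw [← zpow_natCast (2 * r) 2, ← zpow_add₀ (by positivity)]
      have : ((m : ℤ) - 2 + ((2 : ℕ) : ℤ)) = (m : ℤ) := by push_cast; ring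
      rw [this, zpow_natCast]
    have hp : 0 < (2 * r) ^ ((m : ℤ) - 2) := by positivity
    have e12 : ((1:ℝ) / 2) ^ m * 2 ^ (m + 1) = 2 := by
      rw [pow_succ, ← mul_assoc, ← mul_pow]; norm_num
    calc exc T ν P x r
        ≤ (2 * r) ^ ((m : ℤ) - 2) / K (1 / 4) * tiltK m T x K P ν (2 * r) := h4
      _ ≤ (2 * r) ^ ((m : ℤ) - 2) / K (1 / 4) *
          (2 * (dropC m B * Ax m Q T K P ν x (2 * (t₀ / 2 ^ i)))) := by gcongr
      _ = (2 * r) ^ ((m : ℤ) - 2) / K (1 / 4) *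
          ((((1:ℝ) / 2) ^ m * 2 ^ (m + 1)) * (dropC m B *
            Ax m Q T K P ν x (2 * (t₀ / 2 ^ i)))) := by rw [e12]
      _ = (2 * r) ^ ((m : ℤ) - 2) * (1 / 2) ^ m * (2 ^ (m + 1) * dropC m B / K (1 / 4) *
          Ax m Q T K P ν x (2 * (t₀ / 2 ^ i))) := by ring
      _ ≤ (2 * r) ^ ((m : ℤ) - 2) * (1 / 2) ^ m * (τ * (2 * r) ^ 2) := by
          refine mul_le_mul_of_nonneg_left (hsmall.trans ?_) (by positivity)
          gcongr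
      _ = τ * ((1 / 2) ^ m * ((2 * r) ^ ((m : ℤ) - 2) * (2 * r) ^ 2)) := by ring
      _ = τ * r ^ m := by
          rw [hz, ← mul_pow]
          congr 2
          ring
  have h8 := mem_gap_of_drop hC hk h14 hη hT ht₀ ht₀1 hκ0 hκ1 hMκ hx hadm' hB hs'1 hs'2 hG hg'
    hdrop'
  exact gap_mono (η := 0) hT h8.1 hd' h8.2

/-- **The points of a gap region project into the gap set of the exhaustion.** -/
theorem gap_ae (E : Type*) [NormedAddCommGroup E] [InnerProductSpace ℝ E] [FiniteDimensional ℝ E]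
    [MeasurableSpace E] [BorelSpace E] (m Q : ℕ) (hm : 1 ≤ m) {k k' K : ℝ → ℝ}
    (hk : Kern k k' K) (h14 : 0 < K (1 / 4)) {Kl c₀ κ : ℝ} {M : ℕ}
    (hη : IsKernel (E := E) (etaK K) Kl c₀) (hκ0 : 0 < κ) (hκ1 : κ ≤ 1) (hMκ : 8 * M * κ ≤ 1)
    {τ₁ : ℝ} (hτ₁ : 0 < τ₁) :
    ∃ δ μ C : ℝ, 0 < δ ∧ 0 < μ ∧ 0 < C ∧
    ∀ (T : Submodule ℝ E) (h : ℝ) (ν : Measure E) (P : E → E →L[ℝ] E) (φ : E → ℝ)
      (δ₁ t₀ : ℝ) (adm : ℕ → Set E) (ρN N : ℕ → E → ℝ),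
      IntCyl m Q T 0 2 h δ ν P → exc T ν P 0 2 ≤ δ * 2 ^ m → 0 < t₀ → t₀ ≤ 1 / 4 →
      Total (etaK K) c₀ κ M (Dcen T) (closedBall (0 : E) (5 / 4)) adm t₀
        (psiStart φ δ₁) (lamA T ν) (lamB m Q T ν P) (nuB T ν P) ρN N →
      ∀ z ∈ T, ∀ (i d : ℕ) (S : Finset E) (R ρ τ L A : ℝ),
        ‖z‖ + ρ ≤ 9 / 8 → 0 ≤ ρ → ρ ≤ 2 * (t₀ / 2 ^ i) → t₀ / 2 ^ i ≤ 1 / 64 →
        (∀ x ∈ T, ‖x - z‖ ≤ ρ → ∀ j, i ≤ j → (∀ s, t₀ / 2 ^ j ≤ s → s ≤ t₀ / 2 ^ i →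
          exc T ν P x s ≤ τ₁ * s ^ m) → x ∈ adm j) →
        (∀ s, 4 * (t₀ / 2 ^ i) ≤ s → s ≤ 1 / 4 → exc T ν P z s ≤ δ * s ^ m) →
        0 < R → R / 4 ≤ τ → τ ≤ t₀ / 2 ^ i → t₀ / 2 ^ (i + d) ≤ R / 4 →
        ν.real (CAPF.outSet T z S R (ρ + τ)) ≤ μ * τ ^ m →
        1 ≤ L → Real.log (4 * τ / R) ≤ L →
        exc T ν P z (6 * (t₀ / 2 ^ i)) ≤ A * (t₀ / 2 ^ i) ^ ((m : ℤ) - 2) → C * L * A ≤ R ^ 2 →
        ∀ᵐ y ∂ν, y ∈ CAPF.gapSet T z S R ρ →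
          T.starProjection y ∈ COMP.Gap ρN N i d (((d : ℝ)⁻¹) ^ 4 / 4) := by
  obtain ⟨δt, Ct, hδt, hCt, Htop⟩ := ax_le E m Q hm hk h14
  obtain ⟨B₁, hB₁0, hB₁⟩ := hk.pk.exists_bound
  obtain ⟨B₂, hB₂0, hB₂⟩ := hk.pK.exists_bound
  have hanti : Antitone K := NGP.Kern.K_antitone hk
  set Bk : ℝ := B₁ + B₂ + 2 with hBk
  have hBk0 : 0 < Bk := by positivity
  have hc₀ := hη.pos
  have ha : 0 < cg m := cg_pos m
  have hpc : 0 < pC m (1 / 2) (K (1 / 4)) Bk (cg m) :=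
    pC_pos (by norm_num) h14 hBk0.le ha
  set pc := pC m (1 / 2) (K (1 / 4)) Bk (cg m) with hpcd
  set B : ℝ := 16 / (c₀ * κ) with hBd
  have hB : 4 ≤ c₀ / 4 * κ * B := by
    rw [hBd]
    have : c₀ / 4 * κ * (16 / (c₀ * κ)) = 4 := by field_simp; norm_num
    rw [this]
  set D := dropC m B with hD
  have hD0 : 0 < D := dropC_pos m B
  set Ca : ℝ := Ct * 2 ^ (2 - (m : ℤ)) with hCa
  have hCa0 : 0 < Ca := by positivity
  refine ⟨δt / 2 ^ m, 1 / 2 * cg m * (1 / 2) ^ m / 2 / Bk,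
    2 * D * Ca / pc + 4 * 2 ^ (m + 1) * D * Ca / (K (1 / 4) * τ₁) + 1, by positivity,
    by positivity, by positivity, ?_⟩
  intro T h ν P φ δ₁ t₀ adm ρN N hI hexc ht₀ ht₀1 hT z hz i d S R ρ τ L A hzρ hρ0 hρT hTi1 hadm hsm hR
    hRτ hτT hdR hout hL1 hL hE hCLA
  have hC := hI.cyl
  haveI := hC.fin
  set Ti := t₀ / 2 ^ i with hTi
  have hTi0 : 0 < Ti := by positivity
  have h2m : (1:ℝ) ≤ 2 ^ m := one_le_pow₀ (by norm_num)
  have hδle : δt / 2 ^ m ≤ δt := div_le_self hδt.le h2m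
  have hLD := B4.ae_ldpt_of_int (t := R / 8) hI hz (s := ρ) (by rw [sub_zero]; linarith)
  have hA0 : 0 ≤ A := by
    have h1 : 0 ≤ A * Ti ^ ((m : ℤ) - 2) := (exc_nonneg hC z _).trans hE
    have h2 : 0 < Ti ^ ((m : ℤ) - 2) := by positivity
    exact nonneg_of_mul_nonneg_left h1 h2
  have hLA0 : 0 ≤ L * A := by positivity
  -- the two consequences of the size of `R`
  have hc1 : 2 * D * Ca / pc * (L * A) ≤ R ^ 2 := by
    refine le_trans (le_trans (mul_le_mul_of_nonneg_right ?_ hLA0) (le_of_eq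
      (mul_assoc _ _ _).symm)) hCLA
    have : 0 ≤ 4 * 2 ^ (m + 1) * D * Ca / (K (1 / 4) * τ₁) := by positivity
    linarith
  have hc2 : 4 * 2 ^ (m + 1) * D * Ca / (K (1 / 4) * τ₁) * (L * A) ≤ R ^ 2 := by
    refine le_trans (le_trans (mul_le_mul_of_nonneg_right ?_ hLA0) (le_of_eq
      (mul_assoc _ _ _).symm)) hCLA
    have : 0 ≤ 2 * D * Ca / pc := by positivity
    linarith
  filter_upwards [hLD] with y hyLD hy
  set x := T.starProjection y with hx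
  have hxT : x ∈ T := T.starProjection_apply_mem y
  have hbx : ‖bx T z y‖ < ρ := by
    have := hy.1
    unfold bsq at this
    exact lt_of_pow_lt_pow_left₀ 2 hρ0 this
  have hxz : ‖x - z‖ < ρ := by
    rw [norm_bx_of_mem hz, dist_eq_norm] at hbx
    exact hbx
  have hxn : ‖x‖ ≤ 9 / 8 := by
    have := norm_sub_norm_le x z
    linarith
  have hdens := hyLD hbx (R / 8) (by positivity) le_rfl
  have hG1 : BallIn T (ball (0:E) 2) y (2 * Ti) := by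
    intro w hw hw2
    rw [mem_ball_zero_iff]
    have h1 : ‖w‖ ≤ ‖w - T.starProjection y‖ + ‖x‖ := by
      calc ‖w‖ = ‖(w - T.starProjection y) + x‖ := by rw [hx, sub_add_cancel]
        _ ≤ _ := norm_add_le _ _
    linarith
  have hG2 : BallIn T (ball (0:E) 2) x (2 * Ti) := by
    intro w hw hw2
    rw [Submodule.starProjection_eq_self_iff.2 hxT] at hw2
    exact hG1 w hw hw2
  obtain ⟨s, hs, hsg⟩ := point (m := m) (T := T) (K := K) (P := P) (ν := ν) (z := z) hC hk hBk0.le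
    (fun s hs => ⟨(hB₁ s hs).1.trans (by rw [hBk]; linarith),
      (hB₁ s hs).2.trans (by rw [hBk]; linarith), (hB₂ s hs).1.trans (by rw [hBk]; linarith)⟩)
    QP.kern (fun s hs => ⟨(B4.kern_bounds s hs).1.trans (by rw [hBk]; linarith),
      (B4.kern_bounds s hs).2.1.trans (by rw [hBk]; linarith),
      (B4.kern_bounds s hs).2.2.trans (by rw [hBk]; linarith)⟩)
    (κ := 1 / 2) (by norm_num) (fun s _ hs => B4.le_prof' hs)
    (κ₁ := K (1 / 4)) h14 (fun s _ hs => hanti hs) ha hR hρ0 hy hRτ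
    (R' := 2 * Ti) (by linarith) hG1 hout
    (le_of_eq (by rw [mul_div_cancel₀ _ hBk0.ne'])) hdens hL1 hL
  have hs0 : 0 < s := lt_of_lt_of_le (by positivity) hs.1
  have hL0 : 0 < L := by linarith
  have hgpos : 0 < tiltK m T x K P ν s := lt_trans (by positivity) hsg
  -- the energy at the top of the window
  have hEx : exc T ν P x (2 * (2 * Ti)) ≤ A * Ti ^ ((m : ℤ) - 2) := by
    refine (exc_mono hC ?_).trans hE
    rw [dist_eq_norm]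
    linarith
  have hsmx : ∀ s, 2 * Ti ≤ s → s ≤ 1 / 8 → exc T ν P x s ≤ δt * s ^ m := by
    intro r hr1 hr2
    have hr0 : 0 < r := by linarith
    calc exc T ν P x r ≤ exc T ν P z (2 * r) := exc_mono hC (by rw [dist_eq_norm]; linarith)
      _ ≤ δt / 2 ^ m * (2 * r) ^ m := hsm (2 * r) (by linarith) (by linarith)
      _ = δt * r ^ m := by rw [mul_pow]; field_simp
  have htop := Htop T h ν P (intCyl_mono_delta hI hδle)
    (hexc.trans (by gcongr)) x hxT (by linarith) (2 * Ti) (by positivity) (by linarith) hsmx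
  have htop' : Ax m Q T K P ν x (2 * Ti) ≤ Ca * A := by
    have hpp : Ti ^ (2 - (m : ℤ)) * Ti ^ ((m : ℤ) - 2) = 1 := by
      rw [← zpow_add₀ hTi0.ne']; simp
    have hzp : 0 < (2 * Ti) ^ (2 - (m : ℤ)) := by positivity
    calc Ax m Q T K P ν x (2 * Ti)
        ≤ Ct * (2 * Ti) ^ (2 - (m : ℤ)) * exc T ν P x (2 * (2 * Ti)) := htop
      _ ≤ Ct * (2 * Ti) ^ (2 - (m : ℤ)) * (A * Ti ^ ((m : ℤ) - 2)) := by gcongr
      _ = Ct * 2 ^ (2 - (m : ℤ)) * A * (Ti ^ (2 - (m : ℤ)) * Ti ^ ((m : ℤ) - 2)) := by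
          rw [mul_zpow]; ring
      _ = Ca * A := by rw [hpp, mul_one]
  have hAs := tiltK_le_Ax (m := m) (Q := Q) (T := T) (K := K) (P := P) (ν := ν) (x := x) s
  refine mem_gap_adm hC hk h14 hη hT ht₀ ht₀1 hκ0 hκ1 hMκ ⟨hxT, hxn⟩ hτ₁.le
    (fun j hj hsj => hadm x hxT hxz.le j hj hsj) hB (s := s) ?_ ?_ hG2 hgpos ?_ ?_
  · linarith [hs.1]
  · linarith [hs.2]
  · -- the drop
    have h1 : D * (Ca * A) ≤ pc * R ^ 2 / (2 * L) := by
      rw [le_div_iff₀ (by positivity)]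
      have : D * (Ca * A) * (2 * L) = pc * (2 * D * Ca / pc * (L * A)) := by field_simp
      rw [this]
      gcongr
    have h2 : pc * R ^ 2 / (2 * L) = (pc * R ^ 2 / L) / 2 := by rw [div_div, mul_comm 2 L]
    calc D * Ax m Q T K P ν x (2 * Ti) ≤ D * (Ca * A) := by gcongr
      _ ≤ (pc * R ^ 2 / L) / 2 := by rw [← h2]; exact h1
      _ < Ax m Q T K P ν x s := by linarith
  · -- smallness
    have h1 : 2 ^ (m + 1) * D / K (1 / 4) * (Ca * A) ≤ τ₁ * (R / 2) ^ 2 := by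
      have h3 : A ≤ L * A := le_mul_of_one_le_left hA0 hL1
      calc 2 ^ (m + 1) * D / K (1 / 4) * (Ca * A)
          ≤ 2 ^ (m + 1) * D / K (1 / 4) * (Ca * (L * A)) := by gcongr
        _ = τ₁ / 4 * (4 * 2 ^ (m + 1) * D * Ca / (K (1 / 4) * τ₁) * (L * A)) := by field_simp
        _ ≤ τ₁ / 4 * R ^ 2 := by gcongr
        _ = τ₁ * (R / 2) ^ 2 := by ring
    calc 2 ^ (m + 1) * D / K (1 / 4) * Ax m Q T K P ν x (2 * Ti)
        ≤ 2 ^ (m + 1) * D / K (1 / 4) * (Ca * A) := by gcongr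
      _ ≤ τ₁ * (R / 2) ^ 2 := h1
      _ ≤ τ₁ * s ^ 2 := by
        have := hs.1
        gcongr

end Vale.Agent.P214.THIN
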