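import Vale.Agent.P214.CAPF.Event2
import Vale.Agent.P214.CAPF.MoutE

/-!
# P214, block THIN (6): numbers at an event without a jump over six steps
-/

open Set Filter Topology MeasureTheory Metric

set_option linter.all false

namespace Vale.Agent.P214.THIN

open Vale.Agent.P214.NG

variable {X : Type*} [MetricSpace X] {I N : ℕ} {h κ M C₁ ε B₀ C₈ : ℝ} {a g b g₁ : ℝ → ℝ}
  {S₀ : Finset X} {H₀ H₀' : ℝ → ℝ} {H H₁ gS : Finset X → ℝ → ℝ}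

/-- the constant of the quasi-monotonicity -/
noncomputable def qC (M C₁ B₀ : ℝ) : ℝ := Real.exp (NG.C2 M C₁ * B₀)

lemma one_le_qC (hM : 0 ≤ M) (hC₁ : 0 ≤ C₁) (hB0 : 0 ≤ B₀) : 1 ≤ qC M C₁ B₀ := by
  unfold qC
  apply Real.one_le_exp
  have : 0 ≤ NG.C2 M C₁ := by unfold NG.C2; positivity
  positivity

/-- after an event without a jump the energy stays bounded -/
lemma A_le_of_nojump (hD : NGData N h κ M C₁ ε B₀ C₈ a g b g₁ S₀ H₀ H₀' H H₁ gS)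
    (h0 : 0 ≤ h) (hM : 0 ≤ M) (hC₁ : 0 ≤ C₁) {i k : ℕ} (hik : i + k ≤ N)
    (hno : Ag a g h (i + k) < 2 * Ag a g h i) {u v : ℝ} (hu : (i * h : ℝ) ≤ u) (huv : u ≤ v)
    (hv : v ≤ ((i + k : ℕ) : ℝ) * h) :
    Am a g v ≤ 2 * qC M C₁ B₀ ^ 2 * Am a g u := by
  have hi0 : (0:ℝ) ≤ i * h := by positivity
  have hN : ((i + k : ℕ) : ℝ) * h ≤ N * h :=
    mul_le_mul_of_nonneg_right (by exact_mod_cast hik) h0
  have h1 : Am a g v ≤ qC M C₁ B₀ * Ag a g h (i + k) :=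
    NG.A_quasi' hD.epath hM hC₁ hD.budget (hi0.trans (hu.trans huv)) hv hN
  have h2 : Ag a g h i ≤ qC M C₁ B₀ * Am a g u :=
    NG.A_quasi' hD.epath hM hC₁ hD.budget hi0 hu ((huv.trans hv).trans hN)
  have hq : 0 < qC M C₁ B₀ := Real.exp_pos _
  nlinarith

/-- the energy at an event against the grid value -/
lemma A_le_grid (hD : NGData N h κ M C₁ ε B₀ C₈ a g b g₁ S₀ H₀ H₀' H H₁ gS)
    (h0 : 0 ≤ h) (hM : 0 ≤ M) (hC₁ : 0 ≤ C₁) {i k : ℕ} (hik : i + k ≤ N)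
    (hno : Ag a g h (i + k) < 2 * Ag a g h i) {u : ℝ} (hu : (i * h : ℝ) ≤ u)
    (hv : u ≤ ((i + k : ℕ) : ℝ) * h) :
    Am a g u ≤ 2 * qC M C₁ B₀ * Ag a g h i := by
  have hi0 : (0:ℝ) ≤ i * h := by positivity
  have hN : ((i + k : ℕ) : ℝ) * h ≤ N * h :=
    mul_le_mul_of_nonneg_right (by exact_mod_cast hik) h0
  have h1 : Am a g u ≤ qC M C₁ B₀ * Ag a g h (i + k) :=
    NG.A_quasi' hD.epath hM hC₁ hD.budget (hi0.trans hu) hv hN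
  have hq : 0 < qC M C₁ B₀ := Real.exp_pos _
  nlinarith

/-- the square of the window radius -/
lemma wsq_ge (hD : NGData N h κ M C₁ ε B₀ C₈ a g b g₁ S₀ H₀ H₀' H H₁ gS)
    (h0 : 0 ≤ h) (hM : 0 ≤ M) (hC₁ : 0 ≤ C₁) (hB0 : 0 ≤ B₀) (hκ : 1 ≤ κ) {i k : ℕ}
    (hik : i + k ≤ N)
    (hno : Ag a g h (i + k) < 2 * Ag a g h i) {u : ℝ} (hu : (i * h : ℝ) ≤ u)
    (hv : u ≤ ((i + k : ℕ) : ℝ) * h) {e : ℕ → ℕ} {j : ℕ} {R₁ w : ℝ}
    (hR₁ : Lam κ h i ^ e (j + 1) * Am a g u ≤ R₁ ^ 2)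
    (hw : min (R₁ ^ 2) (rad2 e κ h a g (j + 1) i / 9) ≤ w ^ 2) :
    Lam κ h i ^ e (j + 1) * Am a g u ≤ 18 * qC M C₁ B₀ * w ^ 2 := by
  have hq1 : 1 ≤ qC M C₁ B₀ := one_le_qC hM hC₁ hB0
  have hL : 1 ≤ Lam κ h i := one_le_Lam h0 hκ i
  have hLe : 0 < Lam κ h i ^ e (j + 1) := by positivity
  have h1 := A_le_grid hD h0 hM hC₁ hik hno hu hv
  have h2 : Ag a g h i ≤ Abar a g h i := le_Abar i
  have hi0 : (0:ℝ) ≤ i * h := by positivity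
  have hA : 0 < Am a g u := hD.epath.Apos ⟨hi0.trans hu, hv.trans
    (mul_le_mul_of_nonneg_right (by exact_mod_cast hik) h0)⟩
  rcases min_cases (R₁ ^ 2) (rad2 e κ h a g (j + 1) i / 9) with ⟨h3, _⟩ | ⟨h3, _⟩
  · rw [h3] at hw
    have : w ^ 2 ≤ 18 * qC M C₁ B₀ * w ^ 2 := by nlinarith [sq_nonneg w]
    linarith
  · rw [h3] at hw
    have h4 : Lam κ h i ^ e (j + 1) * Am a g u
        ≤ Lam κ h i ^ e (j + 1) * (2 * qC M C₁ B₀ * Abar a g h i) := by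
      refine mul_le_mul_of_nonneg_left (h1.trans ?_) hLe.le
      exact mul_le_mul_of_nonneg_left h2 (by positivity)
    have h5 : rad2 e κ h a g (j + 1) i = Lam κ h i ^ e (j + 1) * Abar a g h i := rfl
    rw [h5] at hw
    nlinarith

/-- the number in the mass bound is small -/
lemma ratio_le (hD : NGData N h κ M C₁ ε B₀ C₈ a g b g₁ S₀ H₀ H₀' H H₁ gS)
    (h0 : 0 ≤ h) (hM : 0 ≤ M) (hC₁ : 0 ≤ C₁) (hB0 : 0 ≤ B₀) (hκ : 1 ≤ κ) {i k : ℕ}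
    (hik : i + k ≤ N)
    (hno : Ag a g h (i + k) < 2 * Ag a g h i) {u u' : ℝ} (hu : (i * h : ℝ) ≤ u)
    (huu' : u ≤ u') (hv : u' ≤ ((i + k : ℕ) : ℝ) * h) (hκu : κ + 2 * u' ≤ 2 * Lam κ h i)
    {e : ℕ → ℕ} {j e0 : ℕ} (he : e j + 1 ≤ e (j + 1)) (he0 : e j ≤ e0) {R₁ w : ℝ} (hw0 : 0 < w)
    (hR₁ : Lam κ h i ^ e (j + 1) * Am a g u ≤ R₁ ^ 2)
    (hw : min (R₁ ^ 2) (rad2 e κ h a g (j + 1) i / 9) ≤ w ^ 2) :
    (κ + 2 * u') ^ e j * Am a g u' / w ^ 2 ≤ 36 * 2 ^ e0 * qC M C₁ B₀ ^ 3 / κ := by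
  have hq1 : 1 ≤ qC M C₁ B₀ := one_le_qC hM hC₁ hB0
  have hL : 1 ≤ Lam κ h i := one_le_Lam h0 hκ i
  have hLκ : κ ≤ Lam κ h i := by
    unfold Lam
    have : (0:ℝ) ≤ 2 * (i * h) := by positivity
    linarith
  have hi0 : (0:ℝ) ≤ i * h := by positivity
  have hN : ((i + k : ℕ) : ℝ) * h ≤ N * h :=
    mul_le_mul_of_nonneg_right (by exact_mod_cast hik) h0
  have hA : 0 < Am a g u := hD.epath.Apos ⟨hi0.trans hu, (huu'.trans hv).trans hN⟩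
  have h1 := wsq_ge hD h0 hM hC₁ hB0 hκ hik hno hu (huu'.trans hv) hR₁ hw
  have h2 := A_le_of_nojump hD h0 hM hC₁ hik hno hu huu' hv
  have hA' : 0 < Am a g u' := hD.epath.Apos ⟨hi0.trans (hu.trans huu'), hv.trans hN⟩
  set q := qC M C₁ B₀ with hq
  set L := Lam κ h i with hLdef
  have hu'0 : 0 ≤ κ + 2 * u' := by linarith [hi0.trans (hu.trans huu')]
  have h3 : (κ + 2 * u') ^ e j ≤ 2 ^ e0 * L ^ e j := by
    calc (κ + 2 * u') ^ e j ≤ (2 * L) ^ e j := by gcongr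
      _ = 2 ^ e j * L ^ e j := mul_pow _ _ _
      _ ≤ 2 ^ e0 * L ^ e j := by gcongr; norm_num
  have h4 : L ^ e j * κ ≤ L ^ e (j + 1) := by
    calc L ^ e j * κ ≤ L ^ e j * L := by gcongr
      _ = L ^ (e j + 1) := (pow_succ _ _).symm
      _ ≤ L ^ e (j + 1) := pow_le_pow_right₀ hL he
  rw [div_le_div_iff₀ (by positivity) (by linarith)]
  calc (κ + 2 * u') ^ e j * Am a g u' * κ
      ≤ (2 ^ e0 * L ^ e j) * (2 * q ^ 2 * Am a g u) * κ := by gcongr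
    _ = 2 * 2 ^ e0 * q ^ 2 * ((L ^ e j * κ) * Am a g u) := by ring
    _ ≤ 2 * 2 ^ e0 * q ^ 2 * (L ^ e (j + 1) * Am a g u) := by gcongr
    _ ≤ 2 * 2 ^ e0 * q ^ 2 * (18 * q * w ^ 2) := by gcongr
    _ = 36 * 2 ^ e0 * q ^ 3 * w ^ 2 := by ring

/-- `4 √J e^{v/2} ≤ 2^{2 k}`, `k = ⌊v⌋` -/
lemma pow_floor_ge {v J : ℝ} (hJ : 1 ≤ J) (hv : 8 * J + 1 ≤ v) :
    16 * J * Real.exp v ≤ (2 ^ (2 * ⌊v⌋₊) : ℝ) ^ 2 := by
  set k := ⌊v⌋₊ with hk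
  have hv0 : 0 ≤ v := by linarith
  have h1 : v < k + 1 := Nat.lt_floor_add_one v
  have h2 : 8 * J ≤ k := by linarith
  have h3 : (k : ℝ) ≤ 2 ^ k := by exact_mod_cast Nat.lt_two_pow_self.le
  have h4 : Real.exp v ≤ 3 ^ (k + 1) := by
    calc Real.exp v ≤ Real.exp ((k + 1 : ℕ) : ℝ) := Real.exp_le_exp.2 (by push_cast; linarith)
      _ = Real.exp 1 ^ (k + 1) := by rw [← Real.exp_nat_mul, mul_one]
      _ ≤ 3 ^ (k + 1) := by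
        have := Real.exp_one_lt_d9
        gcongr
        linarith
  have h5 : (2 ^ (2 * k) : ℝ) ^ 2 = 16 ^ k := by
    rw [← pow_mul, show (16:ℝ) = 2 ^ 4 by norm_num, ← pow_mul]; congr 1; ring
  rw [h5]
  have h6 : (16:ℝ) ^ k = (16 / 6) ^ k * (3 ^ k * 2 ^ k) := by
    rw [← mul_pow, ← mul_pow]; norm_num
  have h7 : (1:ℝ) + k * (5 / 3) ≤ (16 / 6) ^ k := by
    have := one_add_mul_le_pow (show (-2:ℝ) ≤ 5 / 3 by norm_num) k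
    norm_num at this ⊢
    linarith
  calc 16 * J * Real.exp v ≤ 16 * J * 3 ^ (k + 1) := by gcongr
    _ = (6 * (8 * J)) * 3 ^ k := by rw [pow_succ]; ring
    _ ≤ (6 * 2 ^ k) * 3 ^ k := by gcongr; exact h2.trans h3
    _ ≤ ((1 + k * (5 / 3)) * 2 ^ k) * 3 ^ k := by
        gcongr
        nlinarith
    _ ≤ ((16 / 6) ^ k * 2 ^ k) * 3 ^ k := by gcongr
    _ = 16 ^ k := by rw [h6]; ring

end Vale.Agent.P214.THIN
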