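import Vale.Agent.P214.THIN.Main
import Vale.Agent.P214.THIN.Num
import Vale.Agent.P214.GEN.EvSum

/-!
# P214, block THIN (7): from the numbers of an event to `GEN.Ev`
-/

open Set Filter Topology MeasureTheory Metric
open scoped RealInnerProductSpace ENNReal

set_option linter.all false

namespace Vale.Agent.P214.THIN

open Vale.Agent.P214.Skel Vale.Agent.P214.EX Vale.Agent.P214.R2 Vale.Agent.P214.FV
  Vale.Agent.P214.ODE Vale.Agent.P214.GEN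

variable {E : Type*} [NormedAddCommGroup E] [InnerProductSpace ℝ E] [FiniteDimensional ℝ E]
  [MeasurableSpace E] [BorelSpace E]
variable {m Q : ℕ} {T : Submodule ℝ E} {G : Set E} {h : ℝ} {ν : Measure E} {P : E → E →L[ℝ] E}
  {x z : E}

lemma bset_eq_cylSet (hx : x ∈ T) {r : ℝ} (hr : 0 ≤ r) : QP.bset T x r = cylSet T x r := by
  ext y
  show bsq T x y < r ^ 2 ↔ dist (T.starProjection y) x < r
  unfold bsq
  rw [norm_bx_of_mem hx, sq_lt_sq₀ dist_nonneg hr]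

lemma Dex_eq_exc (hx : x ∈ T) {r : ℝ} (hr : 0 ≤ r) : QP.Dex T P ν x r = exc T ν P x r := by
  unfold QP.Dex exc
  rw [bset_eq_cylSet hx hr]
  refine integral_congr_ae (Eventually.of_forall fun y => ?_)
  simp only
  rw [TH.tilt_agree]

lemma measurableSet_gapSet (T : Submodule ℝ E) (z : E) (S : Finset E) (R ρ : ℝ) :
    MeasurableSet (CAPF.gapSet T z S R ρ) := by
  have h1 : CAPF.gapSet T z S R ρ
      = {y | bsq T z y < ρ ^ 2} ∩ ⋂ c ∈ S, {y | R / 2 < ‖hgt T c y‖} := by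
    ext y
    simp [CAPF.gapSet]
  rw [h1]
  refine MeasurableSet.inter ?_ (Finset.measurableSet_biInter _ fun c _ => ?_)
  · exact (isOpen_lt (continuous_bsq T z) continuous_const).measurableSet
  · refine (isOpen_lt continuous_const ?_).measurableSet
    exact ((co T).continuous.sub continuous_const).norm

lemma gap_const (d : ℕ) : ((d : ℝ)⁻¹) ^ 4 / 4 = (4 * (d : ℝ) ^ 4)⁻¹ := by
  rw [inv_pow, mul_inv, div_eq_mul_inv, mul_comm]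

/-- **The pieces of window and level numbers** (pure numbers) -/
lemma numbers {t Tl w A J vl : ℝ} (ht : 0 < t) (hw : 0 < w) (hA : 0 < A) (hJ : 1 ≤ J)
    (htl1 : t ≤ Tl) (hTle : Tl ^ 2 ≤ Real.exp vl * (J * A)) (hJw : 4 * (J * A) ≤ w ^ 2)
    (hvl : 8 * J + 2 ≤ vl) :
    Real.log (2 * t / w) ≤ vl ∧ Tl / 2 ^ (2 * ⌊vl⌋₊) ≤ w / 4 := by
  have hTl0 : 0 < Tl := ht.trans_le htl1
  have hvl0 : 0 ≤ vl := by linarith
  constructor
  · rw [Real.log_le_iff_le_exp (by positivity), div_le_iff₀ hw]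
    have h1 : (2 * t) ^ 2 ≤ (Real.exp vl * w) ^ 2 := by
      have h2 : 1 ≤ Real.exp vl := Real.one_le_exp hvl0
      calc (2 * t) ^ 2 = 4 * t ^ 2 := by ring
        _ ≤ 4 * Tl ^ 2 := by gcongr
        _ ≤ 4 * (Real.exp vl * (J * A)) := by gcongr
        _ = Real.exp vl * (4 * (J * A)) := by ring
        _ ≤ Real.exp vl * w ^ 2 := by gcongr
        _ ≤ (Real.exp vl * Real.exp vl) * w ^ 2 := by
            gcongr
            nlinarith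
        _ = _ := by ring
    exact le_of_sq_le_sq' h1 (by positivity)
  · have h1 := pow_floor_ge (v := vl) hJ (by linarith)
    set D : ℝ := 2 ^ (2 * ⌊vl⌋₊) with hD
    have hD0 : 0 < D := by positivity
    rw [div_le_iff₀ hD0]
    have h2 : (4 * Tl) ^ 2 ≤ (w * D) ^ 2 := by
      calc (4 * Tl) ^ 2 = 16 * Tl ^ 2 := by ring
        _ ≤ 16 * (Real.exp vl * (J * A)) := by gcongr
        _ = (16 * J * Real.exp vl) * A := by ring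
        _ ≤ D ^ 2 * A := by gcongr
        _ ≤ D ^ 2 * w ^ 2 := by
            gcongr
            nlinarith
        _ = _ := by ring
    have h3 : 4 * Tl ≤ w * D := le_of_sq_le_sq' h2 (by positivity)
    linarith
where
  le_of_sq_le_sq' {a b : ℝ} (h : a ^ 2 ≤ b ^ 2) (hb : 0 ≤ b) : a ≤ b := by
    exact le_of_sq_le_sq h hb

/-- the size condition of `gap_ae` -/
lemma size_le {q Cg c₁ J Cv Λ A w vl : ℝ} (hq : 1 ≤ q) (hCg : 0 < Cg) (hc₁ : 0 < c₁)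
    (hJ : 1 ≤ J) (hA : 0 < A) (hΛ : 1 ≤ Λ) (hk : 18 * q * Cg * c₁ * J * Cv ≤ Λ)
    (hv1 : vl ≤ Cv * Λ) (hwsq : Λ ^ 2 * A ≤ 18 * q * w ^ 2) :
    Cg * vl * (c₁ * (J * A)) ≤ w ^ 2 := by
  have h2 : Cg * vl * (c₁ * (J * A)) ≤ Cg * (Cv * Λ) * (c₁ * (J * A)) := by gcongr
  refine h2.trans ?_
  have h3 : 18 * q * (Cg * (Cv * Λ) * (c₁ * (J * A))) ≤ 18 * q * w ^ 2 := by
    calc 18 * q * (Cg * (Cv * Λ) * (c₁ * (J * A)))
        = (18 * q * Cg * c₁ * J * Cv) * (Λ * A) := by ring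
      _ ≤ Λ * (Λ * A) := by gcongr
      _ = Λ ^ 2 * A := by ring
      _ ≤ _ := hwsq
  exact le_of_mul_le_mul_left h3 (by positivity)

lemma jw_le {q J Λ A w : ℝ} (hq : 1 ≤ q) (hJ : 1 ≤ J) (hA : 0 < A) (hΛ : 1 ≤ Λ)
    (hk : 72 * q * J ≤ Λ) (hwsq : Λ ^ 2 * A ≤ 18 * q * w ^ 2) : 4 * (J * A) ≤ w ^ 2 := by
  have h2 : 72 * q * J ≤ Λ ^ 2 := by nlinarith
  have h3 : 72 * q * J * A ≤ 18 * q * w ^ 2 := by
    refine le_trans ?_ hwsq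
    gcongr
  have h4 : 72 * q * J * A = 18 * q * (4 * (J * A)) := by ring
  rw [h4] at h3
  exact le_of_mul_le_mul_left h3 (by positivity)

/-- the final number -/
lemma cube_le {C0 J Cv Λ vl : ℝ} {m : ℕ} (hC0 : 0 < C0) (hJ : 1 ≤ J) (hCv : 1 ≤ Cv)
    (hΛ : 1 ≤ Λ) (hv2 : Λ ≤ Cv * vl) (hvl : 2 ≤ vl)
    (hk : Cv * (C0 * J * 2 ^ (m - 2) * (4 * Cv ^ 2) + 2) ≤ Λ) :
    C0 * J ≤ (Λ ^ 2)⁻¹ * (1 / 2) ^ (m - 2) * ((⌊vl⌋₊ : ℕ) : ℝ) ^ 3 := by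
  set kf := ⌊vl⌋₊ with hkf
  have hkf1 : vl < kf + 1 := Nat.lt_floor_add_one vl
  have hkpos : (0:ℝ) < kf := by linarith
  have hkf2 : Λ ≤ 2 * Cv * kf := by
    have h1 : vl ≤ 2 * kf := by linarith
    calc Λ ≤ Cv * vl := hv2
      _ ≤ Cv * (2 * kf) := by gcongr
      _ = _ := by ring
  have h2 : C0 * J * 2 ^ (m - 2) * (4 * Cv ^ 2) ≤ kf := by
    have h3 : Cv * (C0 * J * 2 ^ (m - 2) * (4 * Cv ^ 2) + 2) ≤ Cv * vl := by linarith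
    have h4 : C0 * J * 2 ^ (m - 2) * (4 * Cv ^ 2) + 2 ≤ vl :=
      le_of_mul_le_mul_left h3 (by linarith)
    linarith
  have h5 : Λ ^ 2 ≤ 4 * Cv ^ 2 * kf ^ 2 := by
    calc Λ ^ 2 ≤ (2 * Cv * kf) ^ 2 := by gcongr
      _ = _ := by ring
  have h6 : C0 * J * 2 ^ (m - 2) * Λ ^ 2 ≤ (kf : ℝ) ^ 3 := by
    calc C0 * J * 2 ^ (m - 2) * Λ ^ 2 ≤ C0 * J * 2 ^ (m - 2) * (4 * Cv ^ 2 * kf ^ 2) := by
          gcongr
      _ = (C0 * J * 2 ^ (m - 2) * (4 * Cv ^ 2)) * kf ^ 2 := by ring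
      _ ≤ kf * kf ^ 2 := by gcongr
      _ = _ := by ring
  have e1 : (Λ ^ 2)⁻¹ * (1 / 2) ^ (m - 2) * (kf : ℝ) ^ 3
      = (kf : ℝ) ^ 3 / (Λ ^ 2 * 2 ^ (m - 2)) := by
    rw [one_div, inv_pow, div_eq_mul_inv, mul_inv]; ring
  rw [e1, le_div_iff₀ (by positivity)]
  calc C0 * J * (Λ ^ 2 * 2 ^ (m - 2)) = C0 * J * 2 ^ (m - 2) * Λ ^ 2 := by ring
    _ ≤ _ := h6

/-- the excess is small up to the scale `1 / 4` -/
lemma exc_small (hC : CylStat m T G h ν P) (hxn : ‖x‖ ≤ 1) {t δ : ℝ} (ht : 0 < t) (hδ : 0 ≤ δ)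
    (hexc : exc T ν P 0 2 ≤ δ / 8 ^ m)
    (hexcs : ∀ r, t ≤ r → r ≤ 1 / 8 → exc T ν P x r ≤ δ * r ^ m) :
    ∀ r, t ≤ r → r ≤ 1 / 4 → exc T ν P x r ≤ δ * r ^ m := by
  intro r hr1 hr2
  rcases le_total r (1 / 8) with h1 | h1
  · exact hexcs r hr1 h1
  · calc exc T ν P x r ≤ exc T ν P 0 2 := exc_mono hC (by
          rw [dist_zero_right]; linarith)
      _ ≤ δ / 8 ^ m := hexc
      _ = δ * (1 / 8) ^ m := by rw [one_div, inv_pow]; ring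
      _ ≤ δ * r ^ m := by gcongr

/-- admissibility of the neighbours -/
lemma adm_near (hC : CylStat m T G h ν P) {t Tl δ η₁ t₀ : ℝ} {j : ℕ} (ht : 0 < t)
    (htl : t ≤ Tl) (hδ0 : 0 ≤ δ) (hδ : δ ≤ η₁ / 2 ^ m)
    (hex : ∀ r, t ≤ r → r ≤ 1 / 4 → exc T ν P x r ≤ δ * r ^ m) {x' : E} (hxx' : ‖x' - x‖ ≤ t)
    (hsj : ∀ r, t₀ / 2 ^ j ≤ r → r ≤ Tl → exc T ν P x' r ≤ η₁ * r ^ m) :
    x' ∈ adm m T ν P η₁ t₀ j := by
  intro r hr1 hr2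
  rcases le_total r Tl with h1 | h1
  · exact hsj r hr1 h1
  · have hr0 : 0 < r := by linarith
    calc exc T ν P x' r ≤ exc T ν P x (2 * r) := exc_mono hC (by
          rw [dist_eq_norm]; linarith)
      _ ≤ δ * (2 * r) ^ m := hex (2 * r) (by linarith) (by linarith)
      _ ≤ η₁ / 2 ^ m * (2 * r) ^ m := by gcongr
      _ = η₁ * r ^ m := by rw [mul_pow]; field_simp

/-- the excess at the scale `6 T_l` -/
lemma exc_six (hC : CylStat m T G h ν P) (hx : x ∈ T) {Tl B : ℝ} (hTl : 0 < Tl)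
    (hB : AA m Q T ν P x (12 * Tl) ≤ B) :
    exc T ν P x (6 * Tl) ≤ (12 ^ ((m : ℤ) - 2) * 2 * B) * Tl ^ ((m : ℤ) - 2) := by
  have hw14 : TH.win (1 / 4) = 1 := TH.win_one le_rfl
  have h14 : 0 < TH.win (1 / 4) := by rw [hw14]; norm_num
  have h1 := exc_le_tiltK hC NGP.kernW h14 hx (r := 6 * Tl) (by positivity)
  have e6 : 2 * (6 * Tl) = 12 * Tl := by ring
  rw [e6, hw14, div_one] at h1
  have h2 := tiltK_le_Ax (m := m) (Q := Q) (T := T) (K := TH.win) (P := P) (ν := ν) (x := x)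
    (12 * Tl)
  have h3 : Ax m Q T TH.win P ν x (12 * Tl) ≤ B := hB
  have hp : 0 < (12 * Tl) ^ ((m : ℤ) - 2) := by positivity
  calc exc T ν P x (6 * Tl)
      ≤ (12 * Tl) ^ ((m : ℤ) - 2) * tiltK m T x TH.win P ν (12 * Tl) := h1
    _ ≤ (12 * Tl) ^ ((m : ℤ) - 2) * (2 * B) := by
        refine mul_le_mul_of_nonneg_left ?_ (by positivity)
        linarith
    _ = _ := by rw [mul_zpow]; ring

/-- **From the numbers of an event to `GEN.Ev`.** -/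
theorem ev_of_numbers (E : Type*) [NormedAddCommGroup E] [InnerProductSpace ℝ E]
    [FiniteDimensional ℝ E] [MeasurableSpace E] [BorelSpace E] (m Q : ℕ) (hm : 1 ≤ m)
    {Kl c₀ κ₀ : ℝ} {M : ℕ} (hη : IsKernel (E := E) (etaK TH.win) Kl c₀) (hκ0 : 0 < κ₀)
    (hκ1 : κ₀ ≤ 1) (hMκ : 8 * M * κ₀ ≤ 1) {η₁ : ℝ} (hη₁ : 0 < η₁) {q J Cv : ℝ} (hq : 1 ≤ q)
    (hJ : 1 ≤ J) (hCv : 1 ≤ Cv) :
    ∃ δ μ κT : ℝ, 0 < δ ∧ 0 < μ ∧ 1 ≤ κT ∧
    ∀ (T : Submodule ℝ E) (h : ℝ) (ν : Measure E) (P : E → E →L[ℝ] E) (φ : E → ℝ)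
      (δ₁ t₀ : ℝ) (ρN N : ℕ → E → ℝ),
      IntCyl m Q T 0 2 h δ ν P → exc T ν P 0 2 ≤ δ / 8 ^ m → 0 < t₀ → t₀ ≤ 1 / 16 →
      Tot m Q T ν P c₀ κ₀ M η₁ t₀ δ₁ φ ρN N →
      ∀ x ∈ T, ‖x‖ ≤ 1 → ∀ (t w Λ : ℝ) (S : Finset E) (l : ℕ),
        0 < t → t ≤ 1 / 512 → 0 < w → w ≤ 2 * t → κT ≤ Λ →
        0 < AA m Q T ν P x t →
        (∀ r, t ≤ r → r ≤ 32 * t → AA m Q T ν P x r ≤ J * AA m Q T ν P x t ∧
          0 < AA m Q T ν P x r) →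
        Λ ^ 2 * AA m Q T ν P x t ≤ 18 * q * w ^ 2 →
        ν.real (CAPF.outSet T x S w (3 / 2 * t)) ≤ μ * (t / 2) ^ m →
        (Λ ^ 2)⁻¹ * AA m Q T ν P x t ≤ (1 + 2 * TH.winC) * (t ^ (2 - (m : ℤ)) *
          ∫ y in CAPF.gapSet T x S w t, ODE.tilt T P y ∂ν) →
        t ≤ t₀ / 2 ^ l → t₀ / 2 ^ l ≤ 2 * t →
        (∀ r, t ≤ r → r ≤ 1 / 8 → exc T ν P x r ≤ δ * r ^ m) →
        vv m Q T ν P x (t₀ / 2 ^ l) ≤ Cv * Λ → Λ ≤ Cv * vv m Q T ν P x (t₀ / 2 ^ l) →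
        Ev m Q T ν P t₀ ρN N 2 x l := by
  have hw14 : TH.win (1 / 4) = 1 := TH.win_one le_rfl
  have h14 : 0 < TH.win (1 / 4) := by rw [hw14]; norm_num
  obtain ⟨δg, μ, Cg, hδg, hμ, hCg, Hg⟩ := gap_ae E m Q (by omega) NGP.kernW h14 hη hκ0 hκ1 hMκ hη₁
  have hC00 : 0 < 1 + 2 * TH.winC := by have := TH.winC_nonneg; linarith
  have hc₁0 : (0:ℝ) < 12 ^ ((m : ℤ) - 2) * 2 := by positivity
  have hkb0 : 0 ≤ 18 * q * Cg * (12 ^ ((m : ℤ) - 2) * 2) * J * Cv := by positivity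
  have hkc0 : 0 ≤ 72 * q * J := by positivity
  have hkd0 : 0 ≤ Cv * (8 * J + 2) := by positivity
  have hke0 : 0 ≤ Cv * ((1 + 2 * TH.winC) * (2 * J) * 2 ^ (m - 2) * (4 * Cv ^ 2) + 2) := by positivity
  refine ⟨min δg (η₁ / 2 ^ m), μ, 1 + 18 * q * Cg * (12 ^ ((m : ℤ) - 2) * 2) * J * Cv
    + 72 * q * J + Cv * (8 * J + 2)
    + Cv * ((1 + 2 * TH.winC) * (2 * J) * 2 ^ (m - 2) * (4 * Cv ^ 2) + 2),
    by positivity, hμ, by linarith, ?_⟩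
  set δ := min δg (η₁ / 2 ^ m) with hδd
  have hδ0 : 0 < δ := by positivity
  have hδ1 : δ ≤ δg := min_le_left _ _
  have hδ2 : δ ≤ η₁ / 2 ^ m := min_le_right _ _
  intro T h ν P φ δ₁ t₀ ρN N hI hexc ht₀ ht₀1 hT x hx hxn t w Λ S l ht0 ht512 hw0 hw2 hκT hA0 hbd
    hwsq hout hen htl1 htl2 hexcs hv1 hv2
  have hk1 : 18 * q * Cg * (12 ^ ((m : ℤ) - 2) * 2) * J * Cv ≤ Λ := by linarith
  have hk2 : 72 * q * J ≤ Λ := by linarith
  have hk3 : Cv * (8 * J + 2) ≤ Λ := by linarith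
  have hk4 : Cv * ((1 + 2 * TH.winC) * (2 * J) * 2 ^ (m - 2) * (4 * Cv ^ 2) + 2) ≤ Λ := by linarith
  have hΛ1 : 1 ≤ Λ := by linarith
  clear hκT hkb0 hkc0 hkd0 hke0
  have hC := hI.cyl
  haveI := hC.fin
  have hTl0 : 0 < t₀ / 2 ^ l := by positivity
  have hJw := jw_le hq hJ hA0 hΛ1 hk2 hwsq
  have hbdTl := hbd _ htl1 (by linarith)
  have hbd12 := (hbd (12 * (t₀ / 2 ^ l)) (by linarith) (by linarith)).1
  have hTle : (t₀ / 2 ^ l) ^ 2 ≤ Real.exp (vv m Q T ν P x (t₀ / 2 ^ l)) *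
      (J * AA m Q T ν P x t) := by
    unfold vv
    rw [Real.exp_log (div_pos (by positivity) hbdTl.2), div_mul_eq_mul_div,
      le_div_iff₀ hbdTl.2]
    exact mul_le_mul_of_nonneg_left hbdTl.1 (by positivity)
  have hvl1 : 8 * J + 2 ≤ vv m Q T ν P x (t₀ / 2 ^ l) :=
    le_of_mul_le_mul_left (hk3.trans hv2) (by linarith)
  obtain ⟨hlog, hlev⟩ := numbers ht0 hw0 hA0 hJ htl1 hTle hJw hvl1
  have hexcs2 := exc_small hC hxn ht0 hδ0.le hexc hexcs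
  have hexc6 := exc_six hC hx hTl0 hbd12
  have hsize := size_le hq hCg hc₁0 hJ hA0 hΛ1 hk1 hv1 hwsq
  have h01 : exc T ν P 0 2 ≤ δg * 2 ^ m := by
    refine hexc.trans ?_
    have h1 : (1:ℝ) ≤ 8 ^ m := one_le_pow₀ (by norm_num)
    have h2 : (1:ℝ) ≤ 2 ^ m := one_le_pow₀ (by norm_num)
    calc δ / 8 ^ m ≤ δ := div_le_self hδ0.le h1
      _ ≤ δg * 1 := by linarith
      _ ≤ δg * 2 ^ m := by gcongr
  have h02 : ∀ r, 4 * (t₀ / 2 ^ l) ≤ r → r ≤ 1 / 4 → exc T ν P x r ≤ δg * r ^ m := by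
    intro r hr1 hr2
    have hr0 : 0 < r := by linarith
    exact (hexcs2 r (by linarith) hr2).trans (by gcongr)
  have hgap := Hg T h ν P φ δ₁ t₀ (adm m T ν P η₁ t₀) ρN N (intCyl_mono_delta hI hδ1)
    h01 ht₀ (by linarith) hT x hx l (2 * ⌊vv m Q T ν P x (t₀ / 2 ^ l)⌋₊) S w t (t / 2)
    (vv m Q T ν P x (t₀ / 2 ^ l)) (12 ^ ((m : ℤ) - 2) * 2 * (J * AA m Q T ν P x t))
    (by linarith) ht0.le (by linarith) (by linarith)
    (fun x' hx' hxx' j hj hsj => adm_near hC ht0 htl1 hδ0.le hδ2 hexcs2 hxx' hsj)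
    h02 hw0 (by linarith) (by linarith) (by
      have e1 : t₀ / 2 ^ (l + 2 * ⌊vv m Q T ν P x (t₀ / 2 ^ l)⌋₊)
          = t₀ / 2 ^ l / 2 ^ (2 * ⌊vv m Q T ν P x (t₀ / 2 ^ l)⌋₊) := by
        rw [div_div, ← pow_add]
      rw [e1]; exact hlev)
    (by
      have e1 : t + t / 2 = 3 / 2 * t := by ring
      rw [e1]; exact hout) (by linarith)
    (by
      have e1 : 4 * (t / 2) / w = 2 * t / w := by ring
      rw [e1]; exact hlog) hexc6 hsize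
  refine ev_of_gap (c₁ := 1 / 2) (J := J) (C₀ := 1 + 2 * TH.winC) (θ := (Λ ^ 2)⁻¹)
    (W := CAPF.gapSet T x S w t)
    (t := t) hC hm ht₀ hxn hx (by linarith) (by norm_num) (by linarith) (by linarith)
    (by linarith) hC00 (by positivity) hbdTl.1 (measurableSet_gapSet T x S w t)
    (fun y hy => hy.1) ?_ hen (cube_le hC00 (show 1 ≤ 2 * J by linarith) hCv hΛ1 hv2 (by linarith) hk4)
  filter_upwards [hgap] with y hy hmem
  have h1 := hy hmem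
  rw [gap_const] at h1
  exact h1

end Vale.Agent.P214.THIN
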