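import Vale.Agent.P214.THIN.Inst

/-!
# P214, block THIN (9): the numbers of an event, collected
-/

open Set Filter Topology MeasureTheory Metric
open scoped RealInnerProductSpace ENNReal

set_option linter.all false

namespace Vale.Agent.P214.THIN

open Vale.Agent.P214.Skel Vale.Agent.P214.EX Vale.Agent.P214.R2 Vale.Agent.P214.GEN
open Vale.Agent.P214.CAPF Vale.Agent.P214.PATHG

variable {E : Type*} [NormedAddCommGroup E] [InnerProductSpace ℝ E] [FiniteDimensional ℝ E]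
  [MeasurableSpace E] [BorelSpace E]
variable {m Q : ℕ} {T : Submodule ℝ E} {G : Set E} {h : ℝ} {ν : Measure E} {P : E → E →L[ℝ] E}
  {x z : E}

lemma Mm_nonneg (m : ℕ) : 0 ≤ Mm m := by unfold Mm; positivity

lemma Kout_nonneg {B₀ C₈ κ₁ A₁ : ℝ} (hB₀ : 0 ≤ B₀) (hC₈ : 0 ≤ C₈) (hκ₁ : 0 ≤ κ₁)
    (hA₁ : 0 ≤ A₁) (m : ℕ) : 0 ≤ Kout kmin (Mm m) (Mm m) B₀ C₈ κ₁ A₁ := by
  have h0 := Mm_nonneg m
  have h1 := kmin_pos
  have h2 : 0 ≤ K9 (Mm m) (Mm m) B₀ C₈ := by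
    unfold K9 NG.K2
    positivity
  unfold Kout
  positivity

/-- the level of a scale -/
lemma exists_level_two {t₀ t : ℝ} (ht : 0 < t) (htt : t ≤ t₀) :
    ∃ l : ℕ, t ≤ t₀ / 2 ^ l ∧ t₀ / 2 ^ l ≤ 2 * t := by
  obtain ⟨l, h1, h2⟩ := exists_nat_pow_near (x := t₀ / t) (y := 2)
    ((one_le_div ht).2 htt) (by norm_num)
  refine ⟨l, ?_, ?_⟩
  · rw [le_div_iff₀ ht] at h1
    rw [le_div_iff₀ (by positivity)]
    linarith
  · rw [div_lt_iff₀ ht, pow_succ] at h2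
    rw [div_le_iff₀ (by positivity)]
    linarith

lemma cap_le {ε s R₁ : ℝ} (hm : 1 ≤ m) (hs : 0 < s) (hε1 : ε ≤ 1)
    (hR₁s : 16 * m * R₁ ^ 2 ≤ ε * s ^ 2) : R₁ ≤ s := by
  have hm' : (1:ℝ) ≤ m := by exact_mod_cast hm
  have h1 : R₁ ^ 2 ≤ s ^ 2 := by
    have h2 : ε * s ^ 2 ≤ 1 * s ^ 2 := by gcongr
    nlinarith [sq_nonneg R₁]
  exact le_of_sq_le_sq h1 hs.le

lemma mono_of_step {e : ℕ → ℕ} (hestep : ∀ j, e j + 1 ≤ e (j + 1)) : Monotone e :=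
  (strictMono_nat_of_lt_succ fun n => by have := hestep n; omega).monotone

section

variable {κ ε B₀ C₈ κ₁ A₁ s R₁ δh β u Cv : ℝ} {S₀ S : Finset E} {e : ℕ → ℕ} {I i j M₀ : ℕ}

/-- bounds of the path variable -/
structure UV (κ u : ℝ) (I i : ℕ) : Prop where
  u0 : 0 ≤ u
  u6 : u ≤ ((i + 6 : ℕ) : ℝ) * Real.log 2
  uN : u ≤ ((I + 6 : ℕ) : ℝ) * Real.log 2
  iN : ((i + 6 : ℕ) : ℝ) * Real.log 2 ≤ ((I + 6 : ℕ) : ℝ) * Real.log 2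
  i6 : i + 6 ≤ I + 6
  lam : 1 ≤ NG.Lam κ (Real.log 2) i
  lamk : κ ≤ NG.Lam κ (Real.log 2) i
  lamu : NG.Lam κ (Real.log 2) i ≤ κ + 2 * u

lemma uv (hκ : 1 ≤ κ) (hiI : i < I) (hu1 : (i * Real.log 2 : ℝ) ≤ u)
    (hu2 : u ≤ ((i + 1 : ℕ) : ℝ) * Real.log 2) : UV κ u I i := by
  have hl := log_two_bounds
  have hl0 : 0 ≤ Real.log 2 := by linarith
  have hi0 : (0:ℝ) ≤ i * Real.log 2 := by positivity
  have hi6 : i + 6 ≤ I + 6 := by omega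
  have hI6' : ((i + 6 : ℕ) : ℝ) * Real.log 2 ≤ ((I + 6 : ℕ) : ℝ) * Real.log 2 :=
    mul_le_mul_of_nonneg_right (by exact_mod_cast hi6) hl0
  have hu6 : u ≤ ((i + 6 : ℕ) : ℝ) * Real.log 2 := by
    push_cast at hu2 ⊢
    linarith
  have hΛκ : κ ≤ NG.Lam κ (Real.log 2) i := by
    unfold NG.Lam
    have : (0:ℝ) ≤ 2 * (i * Real.log 2) := by positivity
    linarith
  exact ⟨hi0.trans hu1, hu6, hu6.trans hI6', hI6', hi6, hκ.trans hΛκ, hΛκ, by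
    unfold NG.Lam; linarith⟩

/-- the cap radius dominates the window radius of the level `j + 1` -/
lemma cap_ge (hD : PData m Q T ν P (I + 6) κ ε B₀ C₈ R₁ δh β x s S₀)
    (hu : UV κ u I i) (he : e (j + 1) ≤ e M₀)
    (h1 : (κ + 2 * u) ^ (e M₀ + 1) * AA m Q T ν P x (s * Real.exp u) ≤ R₁ ^ 2) :
    NG.Lam κ (Real.log 2) i ^ e (j + 1) *
      NG.Am (aP m Q T ν x s) (gP m T ν P x s) u ≤ R₁ ^ 2 := by
  have hA : 0 < NG.Am (aP m Q T ν x s) (gP m T ν P x s) u := hD.epath.Apos ⟨hu.u0, hu.uN⟩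
  refine le_trans ?_ h1
  have hΛ := hu.lam
  have hΛu := hu.lamu
  have h2 : NG.Lam κ (Real.log 2) i ^ e (j + 1) ≤ (κ + 2 * u) ^ (e M₀ + 1) := by
    calc NG.Lam κ (Real.log 2) i ^ e (j + 1) ≤ (κ + 2 * u) ^ e (j + 1) := by gcongr
      _ ≤ _ := pow_le_pow_right₀ (by linarith) (by omega)
  exact mul_le_mul_of_nonneg_right h2 hA.le

/-- bounds of `AA` after an event -/
lemma AA_after (hD : PData m Q T ν P (I + 6) κ ε B₀ C₈ R₁ δh β x s S₀) (hs : 0 < s)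
    (hu : UV κ u I i) (hu1 : (i * Real.log 2 : ℝ) ≤ u)
    (hu2 : u ≤ ((i + 1 : ℕ) : ℝ) * Real.log 2)
    (hno : NG.Ag (aP m Q T ν x s) (gP m T ν P x s) (Real.log 2) (i + 6)
        < 2 * NG.Ag (aP m Q T ν x s) (gP m T ν P x s) (Real.log 2) i) :
    0 < AA m Q T ν P x (s * Real.exp u) ∧
    ∀ r, s * Real.exp u ≤ r → r ≤ 32 * (s * Real.exp u) →
      AA m Q T ν P x r ≤ 2 * qC (Mm m) (Mm m) B₀ ^ 2 * AA m Q T ν P x (s * Real.exp u) ∧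
      0 < AA m Q T ν P x r := by
  have hl0 : 0 ≤ Real.log 2 := by have := log_two_bounds; linarith
  refine ⟨hD.epath.Apos ⟨hu.u0, hu.uN⟩, ?_⟩
  intro r hr1 hr2
  obtain ⟨v, rfl, hv1, hv2⟩ := exists_path_var hs hu2 hr1 hr2
  exact ⟨A_le_of_nojump hD hl0 (Mm_nonneg m) (Mm_nonneg m) hu.i6 hno hu1 hv1 hv2,
    hD.epath.Apos ⟨hu.u0.trans hv1, hv2.trans hu.iN⟩⟩

/-- window radius and energy at an event -/
lemma event_window (hD : PData m Q T ν P (I + 6) κ ε B₀ C₈ R₁ δh β x s S₀)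
    (hC : FV.CylStat m T (ball 0 2) h ν P) (hx : x ∈ T) (hxn : ‖x‖ ≤ 1)
    (hs : 0 < s) (hsN : s * 2 ^ (I + 6) ≤ 1 / 16) (hR₁ : 0 < R₁) (hS₀T : ∀ c ∈ S₀, c ∈ Tᗮ)
    (hε0 : 0 ≤ ε) (hε1 : ε ≤ 1) (hB₀ : 0 ≤ B₀) (hC₈ : 0 ≤ C₈) (hκ : 1 ≤ κ)
    (hu : UV κ u I i) (hu1 : (i * Real.log 2 : ℝ) ≤ u) (hiI : i < I)
    (hej : 1 ≤ e j) (hej1 : e j + 1 ≤ e (j + 1)) (hS : S ⊆ S₀) (hSne : S.Nonempty)
    (hsep : NG.Sep S (NG.rad2 e κ (Real.log 2) (aP m Q T ν x s) (gP m T ν P x s) (j + 1) i))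
    (hcov : NG.Cov S S₀ (NG.rad2 e κ (Real.log 2) (aP m Q T ν x s) (gP m T ν P x s) j i))
    (hno : NG.Ag (aP m Q T ν x s) (gP m T ν P x s) (Real.log 2) (i + 6)
        < 2 * NG.Ag (aP m Q T ν x s) (gP m T ν P x s) (Real.log 2) i)
    (hR₁L : NG.Lam κ (Real.log 2) i ^ e (j + 1) *
      NG.Am (aP m Q T ν x s) (gP m T ν P x s) u ≤ R₁ ^ 2)
    (hgap : ((NG.Lam κ (Real.log 2) i) ^ 2)⁻¹ * NG.Am (aP m Q T ν x s) (gP m T ν P x s) u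
      < gP m T ν P x s u - gSU m T x TH.win (capF T S (wR S R₁)) P ν s u) :
    min (R₁ ^ 2) (NG.rad2 e κ (Real.log 2) (aP m Q T ν x s) (gP m T ν P x s) (j + 1) i / 9)
        ≤ wR S R₁ ^ 2 ∧
      NG.Lam κ (Real.log 2) i ^ 2 * AA m Q T ν P x (s * Real.exp u)
        ≤ 18 * qC (Mm m) (Mm m) B₀ * wR S R₁ ^ 2 ∧
      ((NG.Lam κ (Real.log 2) i) ^ 2)⁻¹ * AA m Q T ν P x (s * Real.exp u)
        ≤ (1 + 2 * TH.winC) * ((s * Real.exp u) ^ (2 - (m : ℤ)) *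
          ∫ y in gapSet T x S (wR S R₁) (s * Real.exp u), ODE.tilt T P y ∂ν) := by
  have hl0 : 0 ≤ Real.log 2 := by have := log_two_bounds; linarith
  have hev := event_data (e := e) hC NGP.kernW (fun s _ => TH.win_le_one s) hs hl0
    (R' := 1 / 8) (by rw [exp_nat_log_two]; linarith) (ballIn_eighth hx hxn) hR₁ hS₀T
    (Mm_nonneg m) (Mm_nonneg m)
    hε0 hε1 hB₀ hC₈ hκ hD hej (by omega) hS hSne hsep hcov
    (u := u) ⟨hu1, hu.uN⟩ hgap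
  obtain ⟨hwmin, -, hen⟩ := hev
  have hwsq := wsq_ge hD hl0 (Mm_nonneg m) (Mm_nonneg m) hB₀ hκ hu.i6 hno hu1 hu.u6 hR₁L hwmin
  refine ⟨hwmin, le_trans ?_ hwsq, hen.le⟩
  have hA0 : 0 < NG.Am (aP m Q T ν x s) (gP m T ν P x s) u := hD.epath.Apos ⟨hu.u0, hu.uN⟩
  exact mul_le_mul_of_nonneg_right (pow_le_pow_right₀ hu.lam (by omega)) hA0.le

/-- the level of the event and its number `vv` -/
lemma level_numbers (hs : 0 < s) (hκ4 : 4 ≤ κ) (hCv : 1 ≤ Cv)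
    (hvv : ∀ u ∈ Icc (0:ℝ) ((I + 6 : ℕ) * Real.log 2),
      κ + 2 * u ≤ Cv * vv m Q T ν P x (s * Real.exp u) ∧
      vv m Q T ν P x (s * Real.exp u) ≤ Cv * (κ + 2 * u) ∧
      (κ + 2 * u) ^ (e M₀ + 1) * AA m Q T ν P x (s * Real.exp u) ≤ R₁ ^ 2)
    (hu : UV κ u I i) (hu2 : u ≤ ((i + 1 : ℕ) : ℝ) * Real.log 2) {Tl : ℝ}
    (hl1 : s * Real.exp u ≤ Tl) (hl2 : Tl ≤ 2 * (s * Real.exp u)) :
    vv m Q T ν P x Tl ≤ 2 * Cv * NG.Lam κ (Real.log 2) i ∧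
      NG.Lam κ (Real.log 2) i ≤ 2 * Cv * vv m Q T ν P x Tl := by
  have hl := log_two_bounds
  have ht0 : 0 < s * Real.exp u := by positivity
  obtain ⟨v, hv, huv, hv6⟩ := exists_path_var hs hu2 hl1 (by linarith)
  have hvu : v ≤ u + Real.log 2 := by
    have h1 : s * Real.exp v ≤ s * Real.exp (u + Real.log 2) := by
      rw [← hv, Real.exp_add, Real.exp_log (by norm_num)]
      linarith
    exact Real.exp_le_exp.1 (le_of_mul_le_mul_left h1 hs)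
  have hvvl := hvv v ⟨hu.u0.trans huv, hv6.trans hu.iN⟩
  rw [← hv] at hvvl
  constructor
  · refine hvvl.2.1.trans ?_
    have h1 : κ + 2 * v ≤ 2 * NG.Lam κ (Real.log 2) i := by
      unfold NG.Lam
      push_cast at hu2
      have hi0 : (0:ℝ) ≤ i * Real.log 2 := mul_nonneg (Nat.cast_nonneg i) (by linarith)
      linarith
    calc Cv * (κ + 2 * v) ≤ Cv * (2 * NG.Lam κ (Real.log 2) i) := by gcongr
      _ = _ := by ring
  · have h1 : NG.Lam κ (Real.log 2) i ≤ κ + 2 * v := by linarith [hu.lamu]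
    have h3 := hu.u0
    have h2 : 0 ≤ Cv * vv m Q T ν P x Tl := by linarith [hvvl.1]
    calc NG.Lam κ (Real.log 2) i ≤ Cv * vv m Q T ν P x Tl := h1.trans hvvl.1
      _ ≤ 2 * Cv * vv m Q T ν P x Tl := by linarith

end

end Vale.Agent.P214.THIN
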