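import Vale.Agent.P214.THIN.Drop
import Vale.Agent.P214.R2.Iv

/-!
# P214, block THIN (3): upper bounds of `Ax` by the excess
-/

open Set Filter Topology MeasureTheory Metric
open scoped RealInnerProductSpace ENNReal

set_option linter.all false

namespace Vale.Agent.P214.THIN

open Vale.Agent.P214.Skel Vale.Agent.P214.EX Vale.Agent.P214.R2 Vale.Agent.P214.FV
  Vale.Agent.P214.ODE Vale.Agent.P214.GEN

variable {E : Type*} [NormedAddCommGroup E] [InnerProductSpace ℝ E] [FiniteDimensional ℝ E]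
  [MeasurableSpace E] [BorelSpace E]
variable {m Q : ℕ} {T : Submodule ℝ E} {G : Set E} {h : ℝ} {ν : Measure E} {P : E → E →L[ℝ] E}
  {k k' K : ℝ → ℝ} {x z : E}

lemma norm_bx_of_mem (hx : x ∈ T) (y : E) : ‖bx T x y‖ = dist (T.starProjection y) x := by
  rw [bx_eq, Submodule.starProjection_eq_self_iff.2 hx, dist_eq_norm]

/-- `tiltK ≤ K 0 r^{2-m} exc` -/
lemma tiltK_le_exc (hC : CylStat m T G h ν P) (hk : Kern k k' K) (hx : x ∈ T) {r : ℝ}
    (hr : 0 < r) :
    tiltK m T x K P ν r ≤ K 0 * r ^ (2 - (m : ℤ)) * exc T ν P x r := by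
  have hpl := CylStat.plane hC
  have hb : ∀ᵐ y ∂ν, |ODE.tilt T P y| ≤ 2 * (Module.finrank ℝ E : ℝ) := hpl.abs_tilt_le
  have i1 := NGP.integrable_K (z := x) hC hk hr (aesm_tilt (T := T) hpl.meas) hb
  unfold tiltK exc
  have h1 : ∫ y, K (bsq T x y / r ^ 2) * ODE.tilt T P y ∂ν
      ≤ K 0 * ∫ y in cylSet T x r, FV.tilt T (P y) ∂ν := by
    rw [← integral_const_mul, ← integral_indicator (measurableSet_cylSet T x r)]
    refine integral_mono_ae i1 (((integrable_tilt' hC).const_mul _).indicator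
      (measurableSet_cylSet T x r)) ?_
    filter_upwards [CylStat.tilt_nonneg hC] with y hy
    have hK0 : K (bsq T x y / r ^ 2) ≤ K 0 :=
      NGP.Kern.K_antitone hk (div_nonneg (bsq_nonneg T x y) (sq_nonneg r))
    by_cases hmem : y ∈ cylSet T x r
    · rw [indicator_of_mem hmem, TH.tilt_agree]
      exact mul_le_mul_of_nonneg_right hK0 hy
    · rw [indicator_of_notMem hmem]
      have h2 : r ≤ dist (T.starProjection y) x := by
        by_contra hcon
        exact hmem (by rw [cylSet, mem_setOf_eq, mem_ball]; exact not_le.1 hcon)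
      have h4 : K (bsq T x y / r ^ 2) = 0 := by
        refine hk.pK.zero _ ?_
        rw [one_le_div (by positivity)]
        unfold bsq
        rw [norm_bx_of_mem hx]
        gcongr
      rw [h4, zero_mul]
  have h2 : 0 < r ^ (2 - (m : ℤ)) := by positivity
  calc r ^ (2 - (m : ℤ)) * ∫ y, K (bsq T x y / r ^ 2) * ODE.tilt T P y ∂ν
      ≤ r ^ (2 - (m : ℤ)) * (K 0 * ∫ y in cylSet T x r, FV.tilt T (P y) ∂ν) := by gcongr
    _ = _ := by ring

/-- `exc x r ≤ (2r)^{m-2} / K(1/4) · tiltK (2r)` -/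
lemma exc_le_tiltK (hC : CylStat m T G h ν P) (hk : Kern k k' K) (h14 : 0 < K (1 / 4))
    (hx : x ∈ T) {r : ℝ} (hr : 0 < r) :
    exc T ν P x r ≤ (2 * r) ^ ((m : ℤ) - 2) / K (1 / 4) * tiltK m T x K P ν (2 * r) := by
  have hpl := CylStat.plane hC
  have hb : ∀ᵐ y ∂ν, |ODE.tilt T P y| ≤ 2 * (Module.finrank ℝ E : ℝ) := hpl.abs_tilt_le
  have i1 := NGP.integrable_K (z := x) hC hk (by positivity : 0 < 2 * r)
    (aesm_tilt (T := T) hpl.meas) hb
  have h1 : K (1 / 4) * ∫ y in cylSet T x r, FV.tilt T (P y) ∂ν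
      ≤ ∫ y, K (bsq T x y / (2 * r) ^ 2) * ODE.tilt T P y ∂ν := by
    rw [← integral_const_mul, ← integral_indicator (measurableSet_cylSet T x r)]
    refine integral_mono_ae (((integrable_tilt' hC).const_mul _).indicator
      (measurableSet_cylSet T x r)) i1 ?_
    filter_upwards [CylStat.tilt_nonneg hC] with y hy
    have hq0 : 0 ≤ bsq T x y / (2 * r) ^ 2 := div_nonneg (bsq_nonneg T x y) (sq_nonneg _)
    have hKn : 0 ≤ K (bsq T x y / (2 * r) ^ 2) := hk.K_nonneg _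
    by_cases hmem : y ∈ cylSet T x r
    · rw [indicator_of_mem hmem, TH.tilt_agree]
      refine mul_le_mul_of_nonneg_right (NGP.Kern.K_antitone hk ?_) hy
      have h2 : dist (T.starProjection y) x < r := hmem
      rw [div_le_iff₀ (by positivity)]
      unfold bsq
      rw [norm_bx_of_mem hx]
      have : dist (T.starProjection y) x ^ 2 ≤ r ^ 2 := by gcongr
      linarith
    · rw [indicator_of_notMem hmem]
      exact mul_nonneg hKn hy
  unfold exc tiltK
  have h3 : (2 * r) ^ ((m : ℤ) - 2) * (2 * r) ^ (2 - (m : ℤ)) = 1 := by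
    rw [← zpow_add₀ (by positivity)]; simp
  have h4 : (2 * r) ^ ((m : ℤ) - 2) / K (1 / 4) * ((2 * r) ^ (2 - (m : ℤ)) *
      ∫ y, K (bsq T x y / (2 * r) ^ 2) * ODE.tilt T P y ∂ν)
      = ((2 * r) ^ ((m : ℤ) - 2) * (2 * r) ^ (2 - (m : ℤ))) *
        (∫ y, K (bsq T x y / (2 * r) ^ 2) * ODE.tilt T P y ∂ν) / K (1 / 4) := by ring
  rw [h4, h3, one_mul, le_div_iff₀ h14]
  linarith

/-- **Upper bound of `Ax`** at a scale above which the excess is small. -/
theorem ax_le (E : Type*) [NormedAddCommGroup E] [InnerProductSpace ℝ E] [FiniteDimensional ℝ E]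
    [MeasurableSpace E] [BorelSpace E] (m Q : ℕ) (hm : 1 ≤ m) {k k' K : ℝ → ℝ}
    (hk : Kern k k' K) (h14 : 0 < K (1 / 4)) :
    ∃ δ C : ℝ, 0 < δ ∧ 0 < C ∧
    ∀ (T : Submodule ℝ E) (h : ℝ) (ν : Measure E) (P : E → E →L[ℝ] E),
      IntCyl m Q T 0 2 h δ ν P → exc T ν P 0 2 ≤ δ * 2 ^ m →
      ∀ x ∈ T, ‖x‖ ≤ 3 / 2 → ∀ r : ℝ, 0 < r → r ≤ 1 / 32 →
      (∀ s, r ≤ s → s ≤ 1 / 8 → exc T ν P x s ≤ δ * s ^ m) →
      Ax m Q T K P ν x r ≤ C * r ^ (2 - (m : ℤ)) * exc T ν P x (2 * r) := by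
  obtain ⟨δ, C, hδ, hC0, H⟩ := ffl_iv E m Q hm
  have hanti : Antitone K := NGP.Kern.K_antitone hk
  have hK0 : 0 < K 0 := lt_of_lt_of_le h14 (hanti (by norm_num))
  refine ⟨δ, 2 * K 0 * C + K 0, hδ, by positivity, ?_⟩
  intro T h ν P hI hexc x hx hxn r hr hr1 hsm
  have hC := hI.cyl
  obtain ⟨Kl, hη⟩ := R2.isKernel_etaK (E := E) hk h14
  have hxr : ‖x‖ + r ≤ 2 := by linarith
  have h1 := H T 0 2 h ν P hI hexc x hx (by rw [sub_zero]; linarith) r hr (by linarith)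
    (fun s h1 h2 => hsm s h1 (by linarith)) (ker (etaK K) x r) 1 (R2.measurable_ker hk x r)
    (fun y => by rw [abs_of_nonneg (ker_nonneg hη x r y)]; exact ker_le_one hη x r y)
    (fun y hy => by
      unfold EX.ker R2.etaK
      rw [hk.pK.zero, zero_div]
      rw [norm_smul, norm_inv, Real.norm_of_nonneg hr.le, mul_pow, inv_pow, inv_mul_eq_div,
        le_div_iff₀ (by positivity), one_mul]
      exact pow_le_pow_left₀ hr.le hy 2)
  have h2 := R2.Lam_ker (Q := Q) hC hk h14 hx hr hxr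
  rw [R2.Lam_eq_Ffl hC (R2.measurable_ker hk x r) (C := 1)
    (fun y => by rw [abs_of_nonneg (ker_nonneg hη x r y)]; exact ker_le_one hη x r y)
    (fun y hy => R2.ker_zero_far hk hr hxr hy)] at h2
  rw [h2, mul_one] at h1
  set a := aK m T x K ν (Q * R2.cK m T K) r
  have h3 := tiltK_le_exc hC hk hx hr
  have h4 := NGP.CylStat.tiltK_nonneg (z := x) hC hk hr
  set g := tiltK m T x K P ν r
  have e0 := exc_mono' (x := x) hC (show r ≤ 2 * r by linarith)
  have ez := exc_nonneg hC x (2 * r)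
  set X := exc T ν P x (2 * r)
  have hp1 : 0 < r ^ (2 - (m : ℤ)) := by positivity
  have hp2 : 0 < r ^ ((m : ℤ) - 2) := by positivity
  have hpp : r ^ ((m : ℤ) - 2) * r ^ (2 - (m : ℤ)) = 1 := by
    rw [← zpow_add₀ hr.ne']; simp
  have h5 : |a - g| ≤ 2 * K 0 * C * r ^ (2 - (m : ℤ)) * X := by
    have e2 : r ^ ((m : ℤ) - 2) / K 0 * ((a - g) / 2)
        = (r ^ ((m : ℤ) - 2) / (2 * K 0)) * (a - g) := by field_simp
    rw [e2, abs_mul, abs_of_pos (show 0 < r ^ ((m : ℤ) - 2) / (2 * K 0) by positivity)] at h1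
    calc |a - g| = (r ^ ((m : ℤ) - 2) * r ^ (2 - (m : ℤ))) * |a - g| := by rw [hpp, one_mul]
      _ = (2 * K 0 * r ^ (2 - (m : ℤ))) * (r ^ ((m : ℤ) - 2) / (2 * K 0) * |a - g|) := by
          field_simp
      _ ≤ (2 * K 0 * r ^ (2 - (m : ℤ))) * (C * X) := by gcongr
      _ = _ := by ring
  have h6 : g ≤ K 0 * r ^ (2 - (m : ℤ)) * X := h3.trans (by gcongr)
  have h7 : 0 ≤ 2 * K 0 * C * r ^ (2 - (m : ℤ)) * X := by positivity
  unfold Ax
  refine max_le ?_ ?_
  · have := le_abs_self (a - g)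
    have : (2 * K 0 * C + K 0) * r ^ (2 - (m : ℤ)) * X
        = 2 * K 0 * C * r ^ (2 - (m : ℤ)) * X + K 0 * r ^ (2 - (m : ℤ)) * X := by ring
    show a ≤ _
    linarith
  · have : (2 * K 0 * C + K 0) * r ^ (2 - (m : ℤ)) * X
        = 2 * K 0 * C * r ^ (2 - (m : ℤ)) * X + K 0 * r ^ (2 - (m : ℤ)) * X := by ring
    show g / 2 ≤ _
    linarith

end Vale.Agent.P214.THIN
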